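import Vale.Agent.Lib.P321.Core

/-!
Binomial weights: sums of squares and of squared differences.
-/

namespace Vale.Agent.P321

open Finset

theorem centralBinom_sq_le (n : ℕ) :
    (2 * n + 1 : ℝ) * ((2 * n).choose n : ℝ) ^ 2 ≤ 16 ^ n := by
  have key : (2 * n + 1) * (Nat.centralBinom n) ^ 2 ≤ 16 ^ n := by
    induction n with
    | zero => simp
    | succ n ih =>
      have h := Nat.succ_mul_centralBinom_succ n
      have h2 : (n + 1) ^ 2 * ((2 * (n + 1) + 1) * (Nat.centralBinom (n + 1)) ^ 2) =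
          (2 * n + 3) * (2 * (2 * n + 1) * Nat.centralBinom n) ^ 2 := by
        rw [← h]; ring
      have h3 : (n + 1) ^ 2 * ((2 * (n + 1) + 1) * (Nat.centralBinom (n + 1)) ^ 2) ≤
          (n + 1) ^ 2 * 16 ^ (n + 1) := by
        rw [h2]
        calc (2 * n + 3) * (2 * (2 * n + 1) * Nat.centralBinom n) ^ 2
            = 4 * ((2 * n + 3) * (2 * n + 1)) * ((2 * n + 1) * Nat.centralBinom n ^ 2) := by ring
          _ ≤ 4 * ((2 * n + 3) * (2 * n + 1)) * 16 ^ n := Nat.mul_le_mul_left _ ih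
          _ ≤ 4 * (4 * (n + 1) ^ 2) * 16 ^ n := by
              apply Nat.mul_le_mul_right
              apply Nat.mul_le_mul_left
              nlinarith
          _ = (n + 1) ^ 2 * 16 ^ (n + 1) := by ring
      exact Nat.le_of_mul_le_mul_left h3 (by positivity)
  have : ((2 * n + 1 : ℕ) : ℝ) * ((Nat.centralBinom n : ℕ) : ℝ) ^ 2 ≤ 16 ^ n := by
    exact_mod_cast key
  rw [Nat.centralBinom] at this
  push_cast at this
  exact this

theorem sum_choose_sq (M : ℕ) :
    ∑ X ∈ range (M + 1), ((M.choose X : ℝ)) ^ 2 = ((2 * M).choose M : ℝ) := by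
  have h := Nat.add_choose_eq M M M
  rw [Nat.sum_antidiagonal_eq_sum_range_succ_mk] at h
  have h2 : ((2 * M).choose M : ℕ) = ∑ X ∈ range (M + 1), (M.choose X) ^ 2 := by
    rw [two_mul, h]
    refine sum_congr rfl (fun X hX => ?_)
    have hX' : X ≤ M := by simpa [Nat.lt_succ_iff] using hX
    simp only
    rw [Nat.choose_symm hX', sq]
  rw [h2]; push_cast; rfl

theorem sum_choose_mul (M : ℕ) :
    ∑ X ∈ range (M + 1), ((M.choose X : ℝ)) * (M.choose (X + 1) : ℝ) =
      ((2 * M).choose (M + 1) : ℝ) := by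
  have h := Nat.add_choose_eq M M (M + 1)
  rw [Nat.sum_antidiagonal_eq_sum_range_succ_mk] at h
  have h2 : ((2 * M).choose (M + 1) : ℕ) = ∑ X ∈ range (M + 1), (M.choose X) * M.choose (X + 1) := by
    rw [two_mul, h, sum_range_succ']
    simp only [Nat.sub_zero, Nat.choose_succ_self, mul_zero, add_zero, Nat.succ_eq_add_one,
      Nat.add_sub_add_right]
    refine sum_congr rfl (fun X hX => ?_)
    have hX' : X ≤ M := by simpa [Nat.lt_succ_iff] using hX
    rw [Nat.choose_symm hX', mul_comm]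
  rw [h2]; push_cast; rfl

theorem choose_succ_rel (M : ℕ) :
    ((2 * M).choose (M + 1) : ℝ) * (M + 1) = ((2 * M).choose M : ℝ) * M := by
  have h := Nat.choose_succ_right_eq (2 * M) M
  have h2 : 2 * M - M = M := by omega
  rw [h2] at h
  exact_mod_cast h

/-- coefficient of place `j` for the binomial law shifted by `A`. -/
noncomputable def bw (M A j : ℕ) : ℝ := if A ≤ j then (M.choose (j - A) : ℝ) / 2 ^ M else 0

theorem bw_nonneg (M A j : ℕ) : 0 ≤ bw M A j := by
  unfold bw; split_ifs <;> positivity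

/-- Summation against `bw`. -/
theorem sum_bw (M A l : ℕ) (hl : A + M + 1 ≤ l) (G : ℕ → ℝ) :
    ∑ j : Fin l, bw M A j * G j = ∑ X ∈ range (M + 1), (M.choose X : ℝ) / 2 ^ M * G (A + X) := by
  rw [← Finset.sum_range (fun j => bw M A j * G j)]
  obtain ⟨r, rfl⟩ := Nat.exists_eq_add_of_le hl
  rw [sum_range_add (fun j => bw M A j * G j) (A + M + 1) r, add_assoc A M 1,
    sum_range_add (fun j => bw M A j * G j) A (M + 1)]
  have e1 : ∑ x ∈ range A, bw M A x * G x = 0 := by
    refine sum_eq_zero (fun x hx => ?_)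
    have : ¬ A ≤ x := by simpa using hx
    simp [bw, this]
  have e2 : ∑ x ∈ range r, bw M A (A + (M + 1) + x) * G (A + (M + 1) + x) = 0 := by
    refine sum_eq_zero (fun x _ => ?_)
    have h1 : A ≤ A + (M + 1) + x := by omega
    have h2 : A + (M + 1) + x - A = M + 1 + x := by omega
    simp only [bw, h1, if_true, h2]
    rw [Nat.choose_eq_zero_of_lt (by omega)]
    simp
  rw [e1, e2, zero_add, add_zero]
  refine sum_congr rfl (fun X _ => ?_)
  have h1 : A ≤ A + X := by omega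
  have h2 : A + X - A = X := by omega
  simp [bw, h2]

theorem sum_bw_one (M A l : ℕ) (hl : A + M + 1 ≤ l) : ∑ j : Fin l, bw M A j = 1 := by
  have := sum_bw M A l hl (fun _ => 1)
  simp only [mul_one] at this
  rw [this, ← sum_div]
  have h := Nat.sum_range_choose M
  have h2 : ∑ X ∈ range (M + 1), (M.choose X : ℝ) = 2 ^ M := by exact_mod_cast h
  rw [h2]; field_simp

theorem sum_bw_sq (M A l : ℕ) (hl : A + M + 1 ≤ l) :
    ∑ j : Fin l, bw M A j ^ 2 = ((2 * M).choose M : ℝ) / 4 ^ M := by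
  have := sum_bw M A l hl (fun j => bw M A j)
  have e : ∑ j : Fin l, bw M A j ^ 2 = ∑ j : Fin l, bw M A j * bw M A j :=
    sum_congr rfl (fun j _ => sq _)
  rw [e, this, ← sum_choose_sq, sum_div]
  refine sum_congr rfl (fun X _ => ?_)
  have h2 : A + X - A = X := by omega
  simp only [bw, Nat.le_add_right, if_true, h2]
  rw [show (4 : ℝ) = 2 ^ 2 by norm_num, ← pow_mul, mul_comm 2 M, pow_mul]
  field_simp

theorem sum_bw_mul (M A l : ℕ) (hl : A + M + 2 ≤ l) :
    ∑ j : Fin l, bw M A j * bw M (A + 1) j = ((2 * M).choose (M + 1) : ℝ) / 4 ^ M := by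
  have := sum_bw M (A + 1) l (by omega) (fun j => bw M A j)
  have e : ∑ j : Fin l, bw M A j * bw M (A + 1) j = ∑ j : Fin l, bw M (A + 1) j * bw M A j :=
    sum_congr rfl (fun j _ => mul_comm _ _)
  rw [e, this, ← sum_choose_mul, sum_div]
  refine sum_congr rfl (fun X _ => ?_)
  have h1 : A ≤ A + 1 + X := by omega
  have h2 : A + 1 + X - A = X + 1 := by omega
  simp only [bw, h1, if_true, h2]
  rw [show (4 : ℝ) = 2 ^ 2 by norm_num, ← pow_mul, mul_comm 2 M, pow_mul]
  field_simp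

theorem sum_bw_sub_sq (M A l : ℕ) (hl : A + M + 2 ≤ l) :
    ∑ j : Fin l, (bw M A j - bw M (A + 1) j) ^ 2 =
      2 * ((2 * M).choose M : ℝ) / 4 ^ M / (M + 1) := by
  have e : ∀ j : Fin l, (bw M A j - bw M (A + 1) j) ^ 2 =
      bw M A j ^ 2 + bw M (A + 1) j ^ 2 - 2 * (bw M A j * bw M (A + 1) j) := fun j => by ring
  simp only [e, sum_sub_distrib, sum_add_distrib, ← mul_sum]
  rw [sum_bw_sq M A l (by omega), sum_bw_sq M (A + 1) l (by omega), sum_bw_mul M A l hl]
  have h := choose_succ_rel M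
  have h0 : (M + 1 : ℝ) ≠ 0 := by positivity
  have h1 : ((2 * M).choose (M + 1) : ℝ) = ((2 * M).choose M : ℝ) * M / (M + 1) := by
    field_simp; linarith
  rw [h1]; field_simp; ring

theorem sum_bw_add_sq_le (M A l : ℕ) (hl : A + M + 2 ≤ l) :
    ∑ j : Fin l, (bw M A j + bw M (A + 1) j) ^ 2 ≤ 4 * (((2 * M).choose M : ℝ) / 4 ^ M) := by
  have : ∀ j : Fin l, (bw M A j + bw M (A + 1) j) ^ 2 ≤
      2 * bw M A j ^ 2 + 2 * bw M (A + 1) j ^ 2 := fun j => by
    nlinarith [sq_nonneg (bw M A j - bw M (A + 1) j)]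
  refine le_trans (sum_le_sum (fun j _ => this j)) ?_
  rw [sum_add_distrib, ← mul_sum, ← mul_sum, sum_bw_sq M A l (by omega),
    sum_bw_sq M (A + 1) l (by omega)]
  apply le_of_eq; ring

theorem cb_le (M : ℕ) : ((2 * M).choose M : ℝ) / 4 ^ M ≤ 1 / √(2 * M + 1) := by
  have h := centralBinom_sq_le M
  have h1 : (0 : ℝ) < 2 * M + 1 := by positivity
  rw [div_le_div_iff₀ (by positivity) (Real.sqrt_pos.mpr h1), one_mul]
  apply le_of_sq_le_sq _ (by positivity)
  rw [mul_pow, Real.sq_sqrt h1.le, ← pow_mul, mul_comm M 2, pow_mul]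
  norm_num
  linarith

end Vale.Agent.P321
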