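import Vale.Agent.Lib.P321.Lam

/-!
The core Hellinger estimate: one marked letter hidden among independent letters.
-/

namespace Vale.Agent.P321

open Finset

/-- indicator of the letter `1`. -/
noncomputable def de : Option Bool → ℝ := fun s => if s = some true then 1 else 0

/-- density of `de` with respect to `pie q`. -/
noncomputable def be (q : ℝ) : Option Bool → ℝ := fun s => if s = some true then (1 + q) / q else 0

theorem be_nonneg {q : ℝ} (h0 : 0 < q) (s : Option Bool) : 0 ≤ be q s := by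
  unfold be; split
  · positivity
  · exact le_refl 0

theorem pie_be {q : ℝ} (h0 : 0 < q) (s : Option Bool) : pie q s * be q s = de s := by
  have : (1 + q) ≠ 0 := by linarith
  unfold be de
  split_ifs with h
  · subst h; simp only [pie]; field_simp
  · simp

theorem sum_pie_be {q : ℝ} (h0 : 0 < q) : ∑ s, pie q s * be q s = 1 := by
  simp only [pie_be h0, de]
  simp

theorem sum_pie_be_sq {q : ℝ} (h0 : 0 < q) : ∑ s, pie q s * (be q s * be q s) = (1 + q) / q := by
  have : ∀ s, pie q s * (be q s * be q s) = de s * be q s := fun s => by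
    rw [← mul_assoc, pie_be h0]
  rw [sum_congr rfl (fun s _ => this s)]
  simp [de, be]

theorem pie_nonneg {q : ℝ} (h0 : 0 < q) (h1 : q < 1) (s : Option Bool) : 0 ≤ pie q s := by
  cases s with
  | none => simp only [pie]; apply div_nonneg <;> linarith
  | some b => simp only [pie]; positivity

/-- product law -/
noncomputable def R (q : ℝ) {l : ℕ} (u : Fin l → Option Bool) : ℝ := ∏ i, pie q (u i)

theorem R_nonneg {q : ℝ} (h0 : 0 < q) (h1 : q < 1) {l : ℕ} (u : Fin l → Option Bool) :
    0 ≤ R q u := prod_nonneg (fun i _ => pie_nonneg h0 h1 _)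

theorem sum_R_prod (q : ℝ) {l : ℕ} (g : Fin l → Option Bool → ℝ) :
    ∑ u : Fin l → Option Bool, R q u * ∏ i, g i (u i) = ∏ i, ∑ s, pie q s * g i s := by
  have := Finset.prod_univ_sum (fun _ : Fin l => (univ : Finset (Option Bool)))
    (fun i s => pie q s * g i s)
  simp only [Fintype.piFinset_univ] at this
  rw [this]
  refine sum_congr rfl (fun u _ => ?_)
  rw [R, ← prod_mul_distrib]

theorem sum_R {q : ℝ} (h0 : 0 < q) (l : ℕ) : ∑ u : Fin l → Option Bool, R q u = 1 := by
  have := sum_R_prod q (l := l) (fun _ _ => 1)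
  simpa [sum_pie h0] using this

theorem sum_R_be {q : ℝ} (h0 : 0 < q) {l : ℕ} (j : Fin l) :
    ∑ u : Fin l → Option Bool, R q u * be q (u j) = 1 := by
  have := sum_R_prod q (l := l) (fun i s => if i = j then be q s else 1)
  simp only [prod_ite_eq', mem_univ, if_true] at this
  rw [this]
  refine prod_eq_one (fun i _ => ?_)
  by_cases h : i = j
  · simp only [h, if_true]; exact sum_pie_be h0
  · simp only [h, if_false, mul_one]; exact sum_pie h0

theorem sum_R_be_be {q : ℝ} (h0 : 0 < q) {l : ℕ} (j k : Fin l) :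
    ∑ u : Fin l → Option Bool, R q u * (be q (u j) * be q (u k)) =
      if j = k then (1 + q) / q else 1 := by
  have := sum_R_prod q (l := l) (fun i s => (if i = j then be q s else 1) *
    (if i = k then be q s else 1))
  simp only [prod_mul_distrib, prod_ite_eq', mem_univ, if_true] at this
  rw [this]
  by_cases hjk : j = k
  · subst hjk
    simp only [if_true]
    rw [prod_eq_single j]
    · simp only [if_true]; exact sum_pie_be_sq h0
    · intro i _ hi
      simp only [hi, if_false, mul_one]; exact sum_pie h0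
    · intro h; exact absurd (mem_univ j) h
  · simp only [hjk, if_false]
    refine prod_eq_one (fun i _ => ?_)
    by_cases h : i = j
    · subst h
      simp only [if_true, hjk, if_false, mul_one]; exact sum_pie_be h0
    · by_cases h' : i = k
      · subst h'
        simp only [h, if_false, if_true, one_mul]; exact sum_pie_be h0
      · simp only [h, h', if_false, mul_one]; exact sum_pie h0

theorem quad {q : ℝ} (h0 : 0 < q) {l : ℕ} (c : Fin l → ℝ) (hc : ∑ j, c j = 0) :
    ∑ u : Fin l → Option Bool, R q u * (∑ j, c j * be q (u j)) ^ 2 = 1 / q * ∑ j, c j ^ 2 := by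
  have e1 : ∀ u : Fin l → Option Bool, R q u * (∑ j, c j * be q (u j)) ^ 2 =
      ∑ j, ∑ k, c j * c k * (R q u * (be q (u j) * be q (u k))) := by
    intro u
    rw [sq, sum_mul_sum, mul_sum]
    refine sum_congr rfl (fun j _ => ?_)
    rw [mul_sum]
    refine sum_congr rfl (fun k _ => ?_)
    ring
  simp only [e1]
  rw [sum_comm]
  have e2 : ∀ j, ∑ u : Fin l → Option Bool, ∑ k, c j * c k *
      (R q u * (be q (u j) * be q (u k))) = ∑ k, c j * c k * (if j = k then (1 + q) / q else 1) := by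
    intro j
    rw [sum_comm]
    refine sum_congr rfl (fun k _ => ?_)
    rw [← mul_sum, sum_R_be_be h0]
  simp only [e2]
  have e3 : ∀ j, ∑ k, c j * c k * (if j = k then (1 + q) / q else 1) =
      1 / q * c j ^ 2 := by
    intro j
    have : ∀ k, c j * c k * (if j = k then (1 + q) / q else 1) =
        c j * c k + (if j = k then (1 / q) * (c j * c k) else 0) := by
      intro k
      split_ifs
      · field_simp; ring
      · ring
    simp only [this, sum_add_distrib, ← mul_sum, hc, sum_ite_eq, mem_univ, if_true]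
    ring
  simp only [e3, ← mul_sum]

theorem exp_neg_le {x : ℝ} (hx : 0 ≤ x) : Real.exp (-x) ≤ 1 - x + x ^ 2 / 2 := by
  have h1 := Real.quadratic_le_exp_of_nonneg hx
  have h2 : 0 < 1 + x + x ^ 2 / 2 := by positivity
  rw [Real.exp_neg]
  rw [inv_le_iff_one_le_mul₀ (Real.exp_pos x)]
  have h3 : 0 ≤ 1 - x + x ^ 2 / 2 := by nlinarith [sq_nonneg (x - 1)]
  calc (1 : ℝ) ≤ (1 - x + x ^ 2 / 2) * (1 + x + x ^ 2 / 2) := by nlinarith [sq_nonneg (x ^ 2)]
    _ ≤ (1 - x + x ^ 2 / 2) * Real.exp x := mul_le_mul_of_nonneg_left h1 h3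

theorem chernoff {q : ℝ} (h0 : 0 < q) (h1 : q < 1) {l : ℕ} (c : Fin l → ℝ)
    (hc0 : ∀ j, 0 ≤ c j) (hc : ∑ j, c j = 2) {lam : ℝ} (hl : 0 ≤ lam) :
    ∑ u : Fin l → Option Bool, R q u * (if ∑ j, c j * be q (u j) < 1 then 1 else 0) ≤
      Real.exp (-lam + lam ^ 2 * ((1 + q) / q * ∑ j, c j ^ 2) / 2) := by
  have e1 : ∀ u : Fin l → Option Bool,
      R q u * (if ∑ j, c j * be q (u j) < 1 then 1 else 0) ≤
      Real.exp lam * (R q u * ∏ j, Real.exp (-(lam * (c j * be q (u j))))) := by
    intro u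
    rw [← Real.exp_sum, sum_neg_distrib, ← mul_sum]
    have hR := R_nonneg h0 h1 u
    split_ifs with h
    · have : (1 : ℝ) ≤ Real.exp lam * Real.exp (-(lam * ∑ j, c j * be q (u j))) := by
        rw [← Real.exp_add]
        apply Real.one_le_exp
        nlinarith
      nlinarith
    · rw [mul_zero]; positivity
  refine le_trans (sum_le_sum (fun u _ => e1 u)) ?_
  rw [← mul_sum, sum_R_prod q (fun j s => Real.exp (-(lam * (c j * be q s))))]
  have e2 : ∀ j, ∑ s, pie q s * Real.exp (-(lam * (c j * be q s))) ≤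
      Real.exp (-(lam * c j) + lam ^ 2 * c j ^ 2 * ((1 + q) / q) / 2) := by
    intro j
    have : ∑ s, pie q s * Real.exp (-(lam * (c j * be q s))) ≤
        ∑ s, pie q s * (1 - (lam * (c j * be q s)) + (lam * (c j * be q s)) ^ 2 / 2) := by
      refine sum_le_sum (fun s _ => ?_)
      exact mul_le_mul_of_nonneg_left (exp_neg_le (by
        have := be_nonneg h0 s; have := hc0 j; positivity)) (pie_nonneg h0 h1 s)
    refine le_trans this ?_
    have e3 : ∑ s, pie q s * (1 - (lam * (c j * be q s)) + (lam * (c j * be q s)) ^ 2 / 2) =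
        (∑ s, pie q s) - lam * c j * (∑ s, pie q s * be q s) +
        lam ^ 2 * c j ^ 2 / 2 * ∑ s, pie q s * (be q s * be q s) := by
      rw [mul_sum, mul_sum, ← sum_sub_distrib, ← sum_add_distrib]
      refine sum_congr rfl (fun s _ => ?_)
      ring
    rw [e3, sum_pie h0, sum_pie_be h0, sum_pie_be_sq h0]
    refine le_trans (le_of_eq ?_) (Real.add_one_le_exp _)
    ring
  have e4 : ∏ j, ∑ s, pie q s * Real.exp (-(lam * (c j * be q s))) ≤
      ∏ j, Real.exp (-(lam * c j) + lam ^ 2 * c j ^ 2 * ((1 + q) / q) / 2) := by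
    refine prod_le_prod (fun j _ => ?_) (fun j _ => e2 j)
    exact sum_nonneg (fun s _ => mul_nonneg (pie_nonneg h0 h1 s) (Real.exp_pos _).le)
  refine le_trans (mul_le_mul_of_nonneg_left e4 (Real.exp_pos _).le) ?_
  rw [← Real.exp_sum, ← Real.exp_add]
  apply le_of_eq
  congr 1
  rw [sum_add_distrib, sum_neg_distrib, ← mul_sum, hc]
  have : ∑ x, lam ^ 2 * c x ^ 2 * ((1 + q) / q) / 2 = lam ^ 2 * ((1 + q) / q * ∑ j, c j ^ 2) / 2 := by
    rw [mul_sum, mul_sum, sum_div]
    exact sum_congr rfl (fun j _ => by ring)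
  rw [this]; ring

theorem sqrt_sub_sq_le {a b : ℝ} (ha : 0 ≤ a) (hb : 0 ≤ b) :
    (√a - √b) ^ 2 ≤ (a - b) ^ 2 + (if a + b < 1 then 1 else 0) := by
  have h2 := Real.sq_sqrt ha
  have h3 := Real.sq_sqrt hb
  have h4 := Real.sqrt_nonneg a
  have h5 := Real.sqrt_nonneg b
  split_ifs with h
  · have : (√a - √b) ^ 2 ≤ a + b := by nlinarith [mul_nonneg h4 h5]
    nlinarith [sq_nonneg (a - b)]
  · rw [not_lt] at h
    have e : (a - b) ^ 2 = (√a - √b) ^ 2 * (√a + √b) ^ 2 := by
      rw [← mul_pow]; congr 1; nlinarith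
    have : 1 ≤ (√a + √b) ^ 2 := by nlinarith [mul_nonneg h4 h5]
    rw [e, add_zero]
    nlinarith [sq_nonneg (√a - √b)]

/-- The law with one marked letter at a random place with distribution `a`. -/
theorem hellinger_core {q : ℝ} (h0 : 0 < q) (h1 : q < 1) {l : ℕ} (a b : Fin l → ℝ)
    (ha0 : ∀ j, 0 ≤ a j) (hb0 : ∀ j, 0 ≤ b j) (ha : ∑ j, a j = 1) (hb : ∑ j, b j = 1)
    {lam : ℝ} (hl : 0 ≤ lam) :
    ∑ u : Fin l → Option Bool, (√(R q u * ∑ j, a j * be q (u j)) -
      √(R q u * ∑ j, b j * be q (u j))) ^ 2 ≤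
      1 / q * ∑ j, (a j - b j) ^ 2 +
      Real.exp (-lam + lam ^ 2 * ((1 + q) / q * ∑ j, (a j + b j) ^ 2) / 2) := by
  have e1 : ∀ u : Fin l → Option Bool, (√(R q u * ∑ j, a j * be q (u j)) -
      √(R q u * ∑ j, b j * be q (u j))) ^ 2 ≤
      R q u * (∑ j, (a j - b j) * be q (u j)) ^ 2 +
      R q u * (if ∑ j, (a j + b j) * be q (u j) < 1 then 1 else 0) := by
    intro u
    have hR := R_nonneg h0 h1 u
    rw [Real.sqrt_mul hR, Real.sqrt_mul hR, ← mul_sub, mul_pow, Real.sq_sqrt hR, ← mul_add]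
    refine mul_le_mul_of_nonneg_left ?_ hR
    have := sqrt_sub_sq_le
      (a := ∑ j, a j * be q (u j)) (b := ∑ j, b j * be q (u j))
      (sum_nonneg (fun j _ => mul_nonneg (ha0 j) (be_nonneg h0 _)))
      (sum_nonneg (fun j _ => mul_nonneg (hb0 j) (be_nonneg h0 _)))
    simp only [sub_mul, add_mul, sum_sub_distrib, sum_add_distrib]
    exact this
  refine le_trans (sum_le_sum (fun u _ => e1 u)) ?_
  rw [sum_add_distrib]
  refine add_le_add ?_ ?_
  · rw [quad h0 _ (by rw [sum_sub_distrib, ha, hb]; ring)]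
  · exact chernoff h0 h1 _ (fun j => add_nonneg (ha0 j) (hb0 j))
      (by rw [sum_add_distrib, ha, hb]; ring) hl

end Vale.Agent.P321
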