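import Mathlib

/-!
Definitions for P321: the sample complexity of worst-case trace reconstruction.
-/

namespace Vale.Agent.P321

/-- The trace of the string `x` for the retention pattern `keep`: the bits `x i` with
`keep i = true`, in their original order. -/
def trace {n : ℕ} (x : Fin n → Bool) (keep : Fin n → Bool) : List Bool :=
  ((List.finRange n).filter (fun i => keep i)).map x

/-- The probability of the retention pattern `keep` when every position is deleted
independently with probability `q`. -/
noncomputable def patternProb (q : ℝ) {n : ℕ} (keep : Fin n → Bool) : ℝ :=
  ∏ i, if keep i then 1 - q else q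

/-- A (possibly randomized) estimator: it receives `m` traces and outputs a random string of
length `n`; `est t z` is the probability that it outputs `z` on receiving the traces `t`. -/
def IsEstimator {n m : ℕ} (est : (Fin m → List Bool) → (Fin n → Bool) → ℝ) : Prop :=
  ∀ t, (∀ z, 0 ≤ est t z) ∧ ∑ z, est t z = 1

/-- The probability that the estimator outputs `x` when it is given `m` independent traces
of `x`. -/
noncomputable def successProb (q : ℝ) {n m : ℕ}
    (est : (Fin m → List Bool) → (Fin n → Bool) → ℝ) (x : Fin n → Bool) : ℝ :=
  ∑ K : Fin m → Fin n → Bool, (∏ j, patternProb q (K j)) * est (fun j => trace x (K j)) x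

/-- `m` traces suffice: some estimator outputs `x` with probability at least `2/3`, for
every string `x` of length `n`. -/
def Reconstructs (q : ℝ) (n m : ℕ) : Prop :=
  ∃ est : (Fin m → List Bool) → (Fin n → Bool) → ℝ,
    IsEstimator est ∧ ∀ x, 2 / 3 ≤ successProb q est x

/-- The worst-case sample complexity `T_q(n)` of trace reconstruction. -/
noncomputable def sampleComplexity (q : ℝ) (n : ℕ) : ℕ :=
  sInf {m | Reconstructs q n m}

end Vale.Agent.P321
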