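import Vale.Agent.Lib.P321.Mix

/-!
The lower bound `T_q(n) ≥ c n^{3/2}`.
-/

namespace Vale.Agent.P321

open Finset

theorem HH_mono {t : ℝ} (ht0 : 0 ≤ t) (ht1 : t ≤ 1) (n : ℕ) (g g' : ℕ → ℝ)
    (h : ∀ M, g M ≤ g' M) (M : ℕ) : HH t n g M ≤ HH t n g' M := by
  induction n generalizing M with
  | zero => exact h M
  | succ n ih =>
    simp only [HH]
    have h1 : 0 ≤ 1 - t := by linarith
    have h2 := mul_le_mul_of_nonneg_left (ih M) (show 0 ≤ (1 - t) ^ 2 + t ^ 2 by positivity)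
    have h3 := mul_le_mul_of_nonneg_left (ih (M + 1)) (show 0 ≤ 2 * t * (1 - t) by positivity)
    linarith

theorem HH_lin (t : ℝ) (n : ℕ) (a b : ℝ) (g : ℕ → ℝ) (M : ℕ) :
    HH t n (fun M => a * g M + b) M = a * HH t n g M + b := by
  induction n generalizing M with
  | zero => rfl
  | succ n ih => simp only [HH, ih]; ring

theorem HH_inv_sq {t : ℝ} (ht0 : 0 ≤ t) (ht1 : t ≤ 1) (n M : ℕ) :
    HH t n (fun M => 1 / ((M : ℝ) + 1) ^ 2) M ≤
      1 / ((M : ℝ) + 1 + (2 * t * (1 - t)) / 4 * n) ^ 2 := by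
  have h1 : 0 ≤ 1 - t := by linarith
  have hr0 : 0 ≤ 2 * t * (1 - t) := by positivity
  have hr1 : 2 * t * (1 - t) ≤ 1 := by nlinarith [sq_nonneg (2 * t - 1)]
  induction n generalizing M with
  | zero => simp [HH]
  | succ n ih =>
    simp only [HH]
    have e : (1 - t) ^ 2 + t ^ 2 = 1 - 2 * t * (1 - t) := by ring
    rw [e]
    have i1 := ih M
    have i2 := ih (M + 1)
    set r := 2 * t * (1 - t) with hr
    set y : ℝ := (M : ℝ) + 1 + r / 4 * n with hy
    have hy1 : 1 ≤ y := by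
      have : (0 : ℝ) ≤ M := Nat.cast_nonneg M
      have : 0 ≤ r / 4 * n := by positivity
      linarith
    have e2 : ((M + 1 : ℕ) : ℝ) + 1 + r / 4 * n = y + 1 := by push_cast; rw [hy]; ring
    have e3 : (M : ℝ) + 1 + r / 4 * ((n + 1 : ℕ) : ℝ) = y + r / 4 := by push_cast; rw [hy]; ring
    rw [e2] at i2
    rw [e3]
    have s1 := mul_le_mul_of_nonneg_left i1 (show 0 ≤ 1 - r by linarith)
    have s2 := mul_le_mul_of_nonneg_left i2 hr0
    have key : (1 - r) * (1 / y ^ 2) + r * (1 / (y + 1) ^ 2) ≤ 1 / (y + r / 4) ^ 2 := by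
      have hyp : 0 < y := by linarith
      have p1 : 0 < (y + r / 4) ^ 2 := by positivity
      have p2 : 0 < y ^ 2 := by positivity
      have p3 : 0 < (y + 1) ^ 2 := by positivity
      rw [mul_one_div, mul_one_div, div_add_div _ _ p2.ne' p3.ne', div_le_div_iff₀ (by positivity) p1]
      have a1 : (1 - r) * (y + 1) ^ 2 + y ^ 2 * r = (y + 1) ^ 2 - r * (2 * y + 1) := by ring
      have a2 : (y + r / 4) ^ 2 ≤ y ^ 2 + r / 4 * (2 * y + 1) := by nlinarith
      have a3 : (y + 1) ^ 2 ≤ 4 * (y + r / 4) ^ 2 := by nlinarith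
      rw [a1, one_mul]
      have a5 : r / 4 * (2 * y + 1) * (y + 1) ^ 2 ≤ r * (2 * y + 1) * (y + r / 4) ^ 2 := by
        have h5 : 0 ≤ r / 4 * (2 * y + 1) := by positivity
        have h6 := mul_le_mul_of_nonneg_left a3 h5
        linarith
      have a6 := mul_le_mul_of_nonneg_left a2 (sq_nonneg (y + 1))
      linarith
    linarith

theorem HH_gq {q t : ℝ} (h0 : 0 < q) (ht0 : 0 < t) (ht1 : t < 1) (n : ℕ) (hn : 1 ≤ n) :
    HH t n (gq q) 0 ≤ Cq q * (12 / (2 * t * (1 - t)) ^ 2 + 1 / 4) / (√(n : ℝ)) ^ 3 := by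
  have hn0 : (0 : ℝ) < n := by exact_mod_cast hn
  set s : ℝ := √(n : ℝ) with hs
  have hs0 : 0 < s := Real.sqrt_pos.mpr hn0
  have hs2 : s ^ 2 = n := Real.sq_sqrt hn0.le
  have hC := Cq_pos h0
  have h1 : ∀ M : ℕ, gq q M ≤ (Cq q * (3 / 4 * s)) * (1 / ((M : ℝ) + 1) ^ 2) +
      Cq q * (1 / 4) / s ^ 3 := by
    intro M
    unfold gq
    have hM0 : (0 : ℝ) < (M : ℝ) + 1 := by positivity
    set v : ℝ := √((M : ℝ) + 1) with hv
    have hv0 : 0 < v := Real.sqrt_pos.mpr hM0
    have hv2 : v ^ 2 = (M : ℝ) + 1 := Real.sq_sqrt hM0.le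
    rw [← hv2, ← pow_mul]
    have : 1 / v ^ 3 ≤ 3 / 4 * s * (1 / v ^ 4) + 1 / 4 / s ^ 3 := by
      have e : 3 / 4 * s * (1 / v ^ 4) + 1 / 4 / s ^ 3 - 1 / v ^ 3 =
          (s - v) ^ 2 * (3 * s ^ 2 + 2 * s * v + v ^ 2) / (4 * v ^ 4 * s ^ 3) := by
        field_simp; ring
      have : 0 ≤ (s - v) ^ 2 * (3 * s ^ 2 + 2 * s * v + v ^ 2) / (4 * v ^ 4 * s ^ 3) := by
        positivity
      linarith
    calc Cq q / v ^ 3 = Cq q * (1 / v ^ 3) := by ring
      _ ≤ Cq q * (3 / 4 * s * (1 / v ^ 4) + 1 / 4 / s ^ 3) :=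
          mul_le_mul_of_nonneg_left this hC.le
      _ = _ := by ring
  refine le_trans (HH_mono ht0.le ht1.le n _ _ h1 0) ?_
  rw [HH_lin]
  have h2 := HH_inv_sq ht0.le ht1.le n 0
  have hr0 : 0 < 2 * t * (1 - t) := by
    have : 0 < 1 - t := by linarith
    positivity
  set r := 2 * t * (1 - t) with hr
  have h3 : 1 / (((0 : ℕ) : ℝ) + 1 + r / 4 * n) ^ 2 ≤ 16 / (r ^ 2 * s ^ 4) := by
    have : s ^ 4 = (n : ℝ) ^ 2 := by rw [← hs2]; ring
    rw [this, div_le_div_iff₀ (by positivity) (by positivity)]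
    have : 0 ≤ r / 4 * n := by positivity
    push_cast
    nlinarith
  have h4 : Cq q * (3 / 4 * s) * HH t n (fun M => 1 / ((M : ℝ) + 1) ^ 2) 0 ≤
      Cq q * (3 / 4 * s) * (16 / (r ^ 2 * s ^ 4)) :=
    mul_le_mul_of_nonneg_left (le_trans h2 h3) (by positivity)
  refine le_trans (add_le_add_left h4 _) (le_of_eq ?_)
  field_simp
  ring

/-- The two strings (as lists). -/
def xl (k : ℕ) : List Bool := blocks k ++ ([true] ++ ([false, true] ++ blocks k))
def yl (k : ℕ) : List Bool := blocks k ++ ([false, true] ++ ([true] ++ blocks k))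

theorem xl_length (k : ℕ) : (xl k).length = 4 * k + 3 := by
  simp [xl, blocks_length]; ring

theorem yl_length (k : ℕ) : (yl k).length = 4 * k + 3 := by
  simp [yl, blocks_length]; ring

theorem xl_ne_yl (k : ℕ) : xl k ≠ yl k := by
  intro h
  have := List.append_cancel_left h
  simp at this

/-- common part of the two functionals -/
noncomputable def Com (q : ℝ) (k : ℕ) (φ : List Bool → ℝ) : ℝ :=
  q * Ex q (blocks k ++ blocks (k + 1)) φ +
    (1 - q) * (1 - th q) * Ex q (blocks k) (fun w => Ex q (blocks k) (fun v => φ (w ++ (true :: v))))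

theorem Ex_xl {q : ℝ} (h0 : 0 < q) (k : ℕ) (φ : List Bool → ℝ) :
    Ex q (xl k) φ = Com q k φ + (1 - q) * th q * JJ (th q) k (Px q φ) 0 0 := by
  have e1 : ∀ w : List Bool, Ex q ([true] ++ ([false, true] ++ blocks k)) (fun v => φ (w ++ v)) =
      q * Ex q (blocks (k + 1)) (fun v => φ (w ++ v)) +
      ((1 - q) * (1 - th q)) * Ex q (blocks k) (fun v => φ (w ++ (true :: v))) +
      ((1 - q) * th q) * Ex q (blocks k) (fun v => ∑ s, pie q s * φ (w ++ (true :: (out s ++ v)))) := by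
    intro w
    show q * Ex q (blocks (k + 1)) (fun v => φ (w ++ v)) +
      (1 - q) * Ex q (blocks (k + 1)) (fun v => φ (w ++ (true :: v))) = _
    rw [Ex_blocks_succ h0 k (fun v => φ (w ++ (true :: v))), Ex_sum]
    simp only [Ex_smul]
    ring
  rw [xl, Ex_append]
  simp only [e1]
  rw [Ex_add, Ex_add, Ex_smul, Ex_smul, Ex_smul]
  rw [lift h0 k (fun w v => ∑ s, pie q s * φ (w ++ (true :: (out s ++ v))))]
  rw [Com, Ex_append]
  rfl

theorem Ex_yl {q : ℝ} (h0 : 0 < q) (k : ℕ) (φ : List Bool → ℝ) :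
    Ex q (yl k) φ = Com q k φ + (1 - q) * th q * JJ (th q) k (Py q φ) 0 0 := by
  have e1 : ∀ w : List Bool, Ex q ([false, true] ++ ([true] ++ blocks k)) (fun v => φ (w ++ v)) =
      q * Ex q (blocks (k + 1)) (fun v => φ (w ++ v)) +
      ((1 - q) * (1 - th q)) * Ex q (blocks k) (fun v => φ (w ++ (true :: v))) +
      ((1 - q) * th q) * Ex q (blocks k) (fun v => ∑ s, pie q s * φ (w ++ (out s ++ (true :: v)))) := by
    intro w
    rw [Ex_append, Ex_block h0, Ex_blocks_succ h0 k]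
    have e2 : ∀ ψ : List Bool → ℝ, Ex q ([true] ++ blocks k) ψ =
      q * Ex q (blocks k) ψ + (1 - q) * Ex q (blocks k) (fun v => ψ (true :: v)) := fun ψ => rfl
    simp only [e2, Ex_sum, Ex_smul, List.nil_append]
    simp only [mul_add, sum_add_distrib, mul_sum]
    have e3 : ∑ i, th q * (pie q i * (q * Ex q (blocks k) fun v => φ (w ++ (out i ++ v)))) =
        ∑ i, q * (th q * (pie q i * Ex q (blocks k) fun v => φ (w ++ (out i ++ v)))) :=
      sum_congr rfl (fun s _ => by ring)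
    have e4 : ∑ i, th q * (pie q i * ((1 - q) * Ex q (blocks k) fun v => φ (w ++ (out i ++ true :: v)))) =
        ∑ i, (1 - q) * th q * (pie q i * Ex q (blocks k) fun v => φ (w ++ (out i ++ true :: v))) :=
      sum_congr rfl (fun s _ => by ring)
    rw [e3, e4]
    ring
  rw [yl, Ex_append]
  simp only [e1]
  rw [Ex_add, Ex_add, Ex_smul, Ex_smul, Ex_smul]
  rw [lift h0 k (fun w v => ∑ s, pie q s * φ (w ++ (out s ++ (true :: v))))]
  rw [Com, Ex_append]
  rfl

theorem Rep_two {q : ℝ} (h0 : 0 ≤ q) (h1 : q ≤ 1) (x y c : List Bool) :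
    Rep (fun φ => Ex q x (fun w => Ex q y (fun v => φ (w ++ (c ++ v))))) := by
  obtain ⟨ι, hι, g, μ, a1, a2⟩ := Rep_Ex h0 h1 x
  obtain ⟨κ, hκ, g', σ, b1, b2⟩ := Rep_Ex h0 h1 y
  refine ⟨ι × κ, inferInstance, fun i => g i.1 ++ (c ++ g' i.2), fun i => μ i.1 * σ i.2,
    fun i => mul_nonneg (a1 _) (b1 _), fun φ => ?_⟩
  show Ex q x (fun w => Ex q y (fun v => φ (w ++ (c ++ v)))) = _
  rw [a2, Fintype.sum_prod_type]
  refine sum_congr rfl (fun i _ => ?_)
  rw [b2, mul_sum]
  exact sum_congr rfl (fun k _ => by ring)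

theorem close_xl_yl {q : ℝ} (h0 : 0 < q) (h1 : q < 1) (k : ℕ) :
    Close (Ex q (xl k)) (Ex q (yl k)) (HH (th q) k (gq q) 0) := by
  have ht0 : 0 < th q := by unfold th; nlinarith
  have ht1 : th q < 1 := by unfold th; nlinarith [sq_nonneg q, mul_pos h0 h0]
  have hJ := closeJ ht0.le ht1.le (Px q) (Py q) (gq q) (base_close h0 h1) k 0 0
  have e0 : ∀ Φ : ℕ → ℕ → ℝ, Bb 0 0 Φ = Φ 0 0 := by intro Φ; simp [Bb]
  simp only [e0] at hJ
  have hC1 : Close (fun φ => q * Ex q (blocks k ++ blocks (k + 1)) φ)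
      (fun φ => q * Ex q (blocks k ++ blocks (k + 1)) φ) (q * 0) :=
    (Rep_Ex h0.le h1.le _).close.smul h0.le
  have hC2 := ((Rep_two h0.le h1.le (blocks k) (blocks k) [true]).close).smul
    (c := (1 - q) * (1 - th q)) (mul_nonneg (by linarith) (by linarith))
  have hC3 := hJ.smul (c := (1 - q) * th q) (mul_nonneg (by linarith) ht0.le)
  have hall := (hC1.add hC2).add hC3
  have hmass : 0 ≤ HH (th q) k (gq q) 0 := by
    have := HH_mono ht0.le ht1.le k (fun _ => 0 * 0 + 0) (gq q) (fun M => by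
      unfold gq; simp; exact div_nonneg (Cq_pos h0).le (by positivity)) 0
    have h2 := HH_lin (th q) k 0 0 (fun _ => 0) 0
    rw [h2] at this
    linarith
  refine (hall.congr (fun φ => ?_) (fun φ => ?_)).mono ?_
  · rw [Ex_xl h0]; rfl
  · rw [Ex_yl h0]; rfl
  · have : (1 - q) * th q ≤ 1 := by nlinarith
    nlinarith

theorem reconstructs_pos {q : ℝ} {n m : ℕ} (hn : 1 ≤ n) (h : Reconstructs q n m) : 1 ≤ m := by
  by_contra hm
  have hm0 : m = 0 := by omega
  subst hm0
  obtain ⟨est, hest, hs⟩ := h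
  have e : ∀ x, successProb q est x = est (fun j => Fin.elim0 j) x := by
    intro x
    unfold successProb
    have : ∀ K : Fin 0 → Fin n → Bool, (fun j => trace x (K j)) = (fun j => Fin.elim0 j) := by
      intro K; funext j; exact Fin.elim0 j
    simp [this]
  have hx := hs (fun _ => false)
  have hy := hs (fun _ => true)
  rw [e] at hx hy
  have h2 := (hest (fun j => Fin.elim0 j)).2
  have hne : (fun _ : Fin n => false) ≠ (fun _ => true) := by
    intro h
    have := congrFun h ⟨0, by omega⟩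
    simp at this
  have : est (fun j => Fin.elim0 j) (fun _ => false) + est (fun j => Fin.elim0 j) (fun _ => true) ≤
      ∑ z, est (fun j => Fin.elim0 j) z := by
    rw [← sum_pair hne]
    exact sum_le_sum_of_subset_of_nonneg (subset_univ _) (fun z _ _ => (hest _).1 _)
  linarith

/-- Lower bound for every number of traces that suffices. -/
theorem lower {q : ℝ} (h0 : 0 < q) (h1 : q < 1) : ∃ c : ℝ, 0 < c ∧ ∀ n m : ℕ, 1 ≤ n →
    Reconstructs q n m → c * (√(n : ℝ)) ^ 3 ≤ m := by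
  have ht0 : 0 < th q := by unfold th; nlinarith
  have ht1 : th q < 1 := by unfold th; nlinarith [sq_nonneg q, mul_pos h0 h0]
  set D : ℝ := Cq q * (12 / (2 * th q * (1 - th q)) ^ 2 + 1 / 4) with hD
  have hD0 : 0 < D := by
    have := Cq_pos h0
    have : 0 < 1 - th q := by linarith
    positivity
  refine ⟨min (1 / (18 * D * (√10) ^ 3)) (1 / (√7) ^ 3), by positivity, ?_⟩
  intro n m hn hr
  by_cases hn7 : n < 7
  · have hm := reconstructs_pos hn hr
    have : (√(n : ℝ)) ^ 3 ≤ (√7) ^ 3 := by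
      apply pow_le_pow_left₀ (Real.sqrt_nonneg _)
      exact Real.sqrt_le_sqrt (by exact_mod_cast hn7.le)
    calc min (1 / (18 * D * (√10) ^ 3)) (1 / (√7) ^ 3) * (√(n : ℝ)) ^ 3
        ≤ (1 / (√7) ^ 3) * (√7) ^ 3 := by
          apply mul_le_mul (min_le_right _ _) this (by positivity) (by positivity)
      _ = 1 := by field_simp
      _ ≤ m := by exact_mod_cast hm
  · rw [not_lt] at hn7
    obtain ⟨k, r, hk, hr4, hnk⟩ : ∃ k r, 1 ≤ k ∧ r ≤ 3 ∧ n = 4 * k + 3 + r :=
      ⟨(n - 3) / 4, (n - 3) % 4, by omega, by omega, by omega⟩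
    have hclose := (close_xl_yl h0 h1 k).append h0.le h1.le (List.replicate r true)
    have hlx : (xl k ++ List.replicate r true).length = n := by
      rw [List.length_append, xl_length, List.length_replicate]; omega
    have hly : (yl k ++ List.replicate r true).length = n := by
      rw [List.length_append, yl_length, List.length_replicate]; omega
    obtain ⟨fx, hfx⟩ : ∃ f : Fin n → Bool, List.ofFn f = xl k ++ List.replicate r true := by
      rw [← hlx]; exact ⟨_, List.ofFn_get _⟩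
    obtain ⟨fy, hfy⟩ : ∃ f : Fin n → Bool, List.ofFn f = yl k ++ List.replicate r true := by
      rw [← hly]; exact ⟨_, List.ofFn_get _⟩
    have hne : fx ≠ fy := by
      intro h
      rw [h] at hfx
      rw [hfx] at hfy
      exact xl_ne_yl k (List.append_cancel_right hfy)
    have hc2 : Close (ExF q fx) (ExF q fy) (HH (th q) k (gq q) 0) := by
      refine hclose.congr (fun φ => ?_) (fun φ => ?_)
      · rw [ExF_eq, hfx, Ex_append]
      · rw [ExF_eq, hfy, Ex_append]
    have hc3 := hc2.mono (HH_gq h0 ht0 ht1 k hk)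
    have key := two_point fx fy hne hc3 hr
    have hk0 : (0 : ℝ) < k := by exact_mod_cast hk
    have hsk : 0 < √(k : ℝ) := Real.sqrt_pos.mpr hk0
    have h10 : √(n : ℝ) ≤ √10 * √(k : ℝ) := by
      rw [← Real.sqrt_mul (by norm_num)]
      apply Real.sqrt_le_sqrt
      have : n ≤ 10 * k := by omega
      exact_mod_cast this
    have h11 : (√(n : ℝ)) ^ 3 ≤ (√10) ^ 3 * (√(k : ℝ)) ^ 3 := by
      rw [← mul_pow]
      exact pow_le_pow_left₀ (Real.sqrt_nonneg _) h10 3
    rw [← hD] at key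
    have h12 : (√(k : ℝ)) ^ 3 / (18 * D) ≤ m := by
      rw [div_le_iff₀ (by positivity)]
      have : (m : ℝ) * (D / (√(k : ℝ)) ^ 3) = m * D / (√(k : ℝ)) ^ 3 := by ring
      rw [this, le_div_iff₀ (by positivity)] at key
      linarith
    calc min (1 / (18 * D * (√10) ^ 3)) (1 / (√7) ^ 3) * (√(n : ℝ)) ^ 3
        ≤ (1 / (18 * D * (√10) ^ 3)) * ((√10) ^ 3 * (√(k : ℝ)) ^ 3) := by
          apply mul_le_mul (min_le_left _ _) h11 (by positivity) (by positivity)
      _ = (√(k : ℝ)) ^ 3 / (18 * D) := by field_simp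
      _ ≤ m := h12

end Vale.Agent.P321
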