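import Vale.Agent.Lib.P321.TwoPoint

/-!
Finiteness of the sample complexity: some number of traces suffices.
-/

namespace Vale.Agent.P321

open Finset

theorem trace_full {n : ℕ} (x K : Fin n → Bool) (h : (trace x K).length = n) :
    trace x K = List.ofFn x := by
  unfold trace at *
  rw [List.length_map] at h
  have h2 : (List.finRange n).filter (fun i => K i) = List.finRange n := by
    apply List.Sublist.eq_of_length List.filter_sublist
    rw [h, List.length_finRange]
  rw [h2, List.ofFn_eq_map]

theorem trace_all {n : ℕ} (x : Fin n → Bool) : trace x (fun _ => true) = List.ofFn x := by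
  unfold trace
  rw [List.ofFn_eq_map]
  congr 1
  simp

/-- Decoding a word of length `n`. -/
def dec (n : ℕ) (w : List Bool) : Fin n → Bool := fun i => w.getD i false

theorem dec_ofFn {n : ℕ} (x : Fin n → Bool) : dec n (List.ofFn x) = x := by
  funext i
  simp [dec, List.getD]

open Classical in
/-- The estimator: output a trace of full length if there is one. -/
noncomputable def est0 (n m : ℕ) (t : Fin m → List Bool) (z : Fin n → Bool) : ℝ :=
  if h : ∃ j, (t j).length = n then (if z = dec n (t h.choose) then 1 else 0)
  else (if z = fun _ => false then 1 else 0)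

theorem est0_is (n m : ℕ) : IsEstimator (est0 n m) := by
  classical
  intro t
  unfold est0
  by_cases h : ∃ j, (t j).length = n
  · simp only [h, dif_pos]
    refine ⟨fun z => by split_ifs <;> norm_num, ?_⟩
    simp
  · simp only [h, dif_neg, not_false_iff]
    refine ⟨fun z => by split_ifs <;> norm_num, ?_⟩
    simp

theorem reconstructs_exists {q : ℝ} (h0 : 0 ≤ q) (h1 : q < 1) (n : ℕ) :
    ∃ m, Reconstructs q n m := by
  classical
  have hp : 0 < (1 - q) ^ n := by
    have : 0 < 1 - q := by linarith
    positivity
  have hp1 : (1 - q) ^ n ≤ 1 := pow_le_one₀ (by linarith) (by linarith)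
  obtain ⟨m, hm⟩ := exists_pow_lt_of_lt_one (show (0 : ℝ) < 1 / 3 by norm_num)
    (show 1 - (1 - q) ^ n < 1 by linarith)
  refine ⟨m, est0 n m, est0_is n m, fun x => ?_⟩
  unfold successProb
  have hsum : ∑ K : Fin m → Fin n → Bool, (∏ j, patternProb q (K j)) = 1 := by
    have := Finset.prod_univ_sum (fun _ : Fin m => (univ : Finset (Fin n → Bool)))
      (fun _ K => patternProb q K)
    simp only [Fintype.piFinset_univ] at this
    rw [← this, sum_patternProb]; simp
  have hbad : ∑ K : Fin m → Fin n → Bool, (∏ j, (patternProb q (K j) *
      (if K j = fun _ => true then 0 else 1))) = (1 - (1 - q) ^ n) ^ m := by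
    have := Finset.prod_univ_sum (fun _ : Fin m => (univ : Finset (Fin n → Bool)))
      (fun _ K => patternProb q K * (if K = fun _ => true then 0 else 1))
    simp only [Fintype.piFinset_univ] at this
    rw [← this]
    simp only [prod_const, card_univ, Fintype.card_fin]
    congr 1
    have e : ∀ K : Fin n → Bool, patternProb q K * (if K = fun _ => true then 0 else 1) =
        patternProb q K - (if K = fun _ => true then patternProb q K else 0) := by
      intro K; split_ifs <;> ring
    simp only [e, sum_sub_distrib, sum_patternProb, sum_ite_eq', mem_univ, if_true]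
    congr 1
    unfold patternProb
    simp
  have hpt : ∀ K : Fin m → Fin n → Bool, (∏ j, patternProb q (K j)) -
      ∏ j, (patternProb q (K j) * (if K j = fun _ => true then 0 else 1)) ≤
      (∏ j, patternProb q (K j)) * est0 n m (fun j => trace x (K j)) x := by
    intro K
    have hK : 0 ≤ ∏ j, patternProb q (K j) :=
      prod_nonneg (fun j _ => patternProb_nonneg h0 h1.le _)
    rw [prod_mul_distrib]
    by_cases h : ∃ j, K j = fun _ => true
    · obtain ⟨j, hj⟩ := h
      have e1 : ∏ j, (if K j = fun _ => true then (0 : ℝ) else 1) = 0 :=
        prod_eq_zero (mem_univ j) (by simp [hj])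
      have hex : ∃ j, ((fun j => trace x (K j)) j).length = n :=
        ⟨j, by simp only [hj, trace_all, List.length_ofFn]⟩
      have e2 : est0 n m (fun j => trace x (K j)) x = 1 := by
        unfold est0
        rw [dif_pos hex]
        have := hex.choose_spec
        rw [if_pos]
        show x = dec n (trace x (K hex.choose))
        rw [trace_full x _ this, dec_ofFn]
      rw [e1, e2]; linarith
    · have e1 : ∏ j, (if K j = fun _ => true then (0 : ℝ) else 1) = 1 :=
        prod_eq_one (fun j _ => by
          have : ¬ K j = fun _ => true := fun h' => h ⟨j, h'⟩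
          simp [this])
      rw [e1, mul_one, sub_self]
      exact mul_nonneg hK ((est0_is n m _).1 _)
  have := sum_le_sum (fun K (_ : K ∈ (univ : Finset (Fin m → Fin n → Bool))) => hpt K)
  rw [sum_sub_distrib, hsum, hbad] at this
  linarith

end Vale.Agent.P321
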