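import Vale.Agent.Lib.P321.ListEx

/-!
Random words made of independent letters, each letter producing a short piece of the trace.
-/

namespace Vale.Agent.P321

open Finset

/-- The piece of trace produced by a nonempty block. -/
def out : Option Bool → List Bool
  | some c => [c]
  | none => [false, true]

/-- Expectation over words of length `l` with independent letters of laws `ν i`. -/
noncomputable def Lam : ℕ → (ℕ → Option Bool → ℝ) → (List Bool → ℝ) → ℝ
  | 0, _, φ => φ []
  | l + 1, ν, φ => ∑ s : Option Bool, ν 0 s * Lam l (fun i => ν (i + 1)) (fun w => φ (out s ++ w))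

theorem Lam_append (l k : ℕ) (ν : ℕ → Option Bool → ℝ) (φ : List Bool → ℝ) :
    Lam (l + k) ν φ = Lam l ν (fun w => Lam k (fun i => ν (i + l)) (fun v => φ (w ++ v))) := by
  induction l generalizing ν φ with
  | zero => simp [Lam]
  | succ l ih =>
    rw [Nat.succ_add]
    simp only [Lam]
    refine sum_congr rfl (fun s _ => ?_)
    rw [ih]
    simp only [List.append_assoc]
    have : ∀ i, i + (l + 1) = i + l + 1 := fun i => by omega
    simp only [this]

theorem Lam_add (l : ℕ) (ν : ℕ → Option Bool → ℝ) (φ ψ : List Bool → ℝ) :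
    Lam l ν (fun w => φ w + ψ w) = Lam l ν φ + Lam l ν ψ := by
  induction l generalizing ν φ ψ with
  | zero => simp [Lam]
  | succ l ih =>
    simp only [Lam, ih, mul_add, sum_add_distrib]

theorem Lam_smul (l : ℕ) (ν : ℕ → Option Bool → ℝ) (c : ℝ) (φ : List Bool → ℝ) :
    Lam l ν (fun w => c * φ w) = c * Lam l ν φ := by
  induction l generalizing ν φ with
  | zero => simp [Lam]
  | succ l ih =>
    simp only [Lam, ih, mul_sum]
    refine sum_congr rfl (fun s _ => ?_)
    ring

theorem Lam_eq (l : ℕ) (ν : ℕ → Option Bool → ℝ) (φ : List Bool → ℝ) :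
    Lam l ν φ = ∑ u : Fin l → Option Bool, (∏ i : Fin l, ν i (u i)) *
      φ ((List.ofFn u).flatMap out) := by
  induction l generalizing ν φ with
  | zero => simp [Lam]
  | succ l ih =>
    rw [sum_fin_succ]
    simp only [Lam]
    refine sum_congr rfl (fun s _ => ?_)
    rw [ih, mul_sum]
    refine sum_congr rfl (fun u _ => ?_)
    rw [Fin.prod_univ_succ, List.ofFn_succ]
    simp only [Fin.cons_zero, Fin.cons_succ, List.flatMap_cons, Fin.val_zero, Fin.val_succ]
    ring

/-- Law of the letter produced by a nonempty block `01`. -/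
noncomputable def pie (q : ℝ) : Option Bool → ℝ
  | some _ => q / (1 + q)
  | none => (1 - q) / (1 + q)

/-- The probability that a block `01` is not entirely deleted. -/
noncomputable def th (q : ℝ) : ℝ := 1 - q ^ 2

theorem sum_pie {q : ℝ} (h0 : 0 < q) : ∑ s, pie q s = 1 := by
  have : (1 + q) ≠ 0 := by linarith
  simp only [Fintype.sum_option, Fintype.sum_bool, pie]
  field_simp
  ring

theorem Ex_block {q : ℝ} (h0 : 0 < q) (φ : List Bool → ℝ) :
    Ex q [false, true] φ = (1 - th q) * φ [] + th q * ∑ s, pie q s * φ (out s) := by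
  have : (1 + q) ≠ 0 := by linarith
  simp only [Ex, Fintype.sum_option, Fintype.sum_bool, pie, out, th]
  field_simp
  ring

/-- `n` blocks `01`. -/
def blocks : ℕ → List Bool
  | 0 => []
  | n + 1 => [false, true] ++ blocks n

theorem blocks_length (n : ℕ) : (blocks n).length = 2 * n := by
  induction n with
  | zero => rfl
  | succ n ih => simp [blocks, ih]; ring

theorem Ex_blocks_succ {q : ℝ} (h0 : 0 < q) (n : ℕ) (φ : List Bool → ℝ) :
    Ex q (blocks (n + 1)) φ = (1 - th q) * Ex q (blocks n) φ +
      th q * ∑ s, pie q s * Ex q (blocks n) (fun w => φ (out s ++ w)) := by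
  show Ex q ([false, true] ++ blocks n) φ = _
  rw [Ex_append, Ex_block h0]
  simp

/-- Expectation over `k` letters of law `pie q`. -/
noncomputable def L (q : ℝ) (k : ℕ) (φ : List Bool → ℝ) : ℝ := Lam k (fun _ => pie q) φ

theorem L_zero (q : ℝ) (φ : List Bool → ℝ) : L q 0 φ = φ [] := rfl

theorem L_succ (q : ℝ) (k : ℕ) (φ : List Bool → ℝ) :
    L q (k + 1) φ = ∑ s, pie q s * L q k (fun w => φ (out s ++ w)) := rfl

/-- Shifts of functions of two counts. -/
def S1 (Φ : ℕ → ℕ → ℝ) : ℕ → ℕ → ℝ := fun k l => Φ (k + 1) l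
def S2 (Φ : ℕ → ℕ → ℝ) : ℕ → ℕ → ℝ := fun k l => Φ k (l + 1)

/-- Averaging over the numbers of nonempty blocks among two groups of `n` blocks. -/
noncomputable def JJ (t : ℝ) : ℕ → (ℕ → ℕ → ℝ) → ℕ → ℕ → ℝ
  | 0, Φ => Φ
  | n + 1, Φ => fun k l =>
      (1 - t) ^ 2 * JJ t n Φ k l +
        t * (1 - t) * (JJ t n Φ (k + 1) l + JJ t n Φ k (l + 1)) +
        t ^ 2 * JJ t n Φ (k + 1) (l + 1)

theorem JJ_S1 (t : ℝ) (n : ℕ) (Φ : ℕ → ℕ → ℝ) (k l : ℕ) :
    JJ t n (S1 Φ) k l = JJ t n Φ (k + 1) l := by
  induction n generalizing k l with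
  | zero => rfl
  | succ n ih => simp only [JJ, ih]

theorem JJ_S2 (t : ℝ) (n : ℕ) (Φ : ℕ → ℕ → ℝ) (k l : ℕ) :
    JJ t n (S2 Φ) k l = JJ t n Φ k (l + 1) := by
  induction n generalizing k l with
  | zero => rfl
  | succ n ih => simp only [JJ, ih]

theorem JJ_sum (t : ℝ) (n : ℕ) {ι : Type} (s : Finset ι) (c : ι → ℝ) (Φ : ι → ℕ → ℕ → ℝ)
    (k l : ℕ) :
    JJ t n (fun a b => ∑ i ∈ s, c i * Φ i a b) k l = ∑ i ∈ s, c i * JJ t n (Φ i) k l := by
  induction n generalizing k l with
  | zero => rfl
  | succ n ih =>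
    simp only [JJ, ih]
    simp only [mul_add, mul_sum, ← sum_add_distrib]
    refine sum_congr rfl (fun i _ => ?_)
    ring

/-- The two groups of blocks `01` around the middle, in terms of independent letters. -/
theorem lift {q : ℝ} (h0 : 0 < q) (n : ℕ) (Φ : List Bool → List Bool → ℝ) :
    Ex q (blocks n) (fun w => Ex q (blocks n) (fun v => Φ w v)) =
      JJ (th q) n (fun k l => L q k (fun w => L q l (fun v => Φ w v))) 0 0 := by
  induction n generalizing Φ with
  | zero => simp [blocks, Ex, JJ, L_zero]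
  | succ n ih =>
    simp only [Ex_blocks_succ h0]
    have e1 : Ex q (blocks n) (fun w => (1 - th q) * Ex q (blocks n) (fun v => Φ w v) +
        th q * ∑ s, pie q s * Ex q (blocks n) (fun v => Φ w (out s ++ v))) =
        (1 - th q) * JJ (th q) n (fun k l => L q k (fun w => L q l (fun v => Φ w v))) 0 0 +
        th q * JJ (th q) n (fun k l => L q k (fun w => L q l (fun v => Φ w v))) 0 1 := by
      rw [Ex_add, Ex_smul, Ex_smul, Ex_sum, ih]
      congr 2
      simp only [Ex_smul, ih]
      rw [← JJ_sum, ← JJ_S2]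
      congr 1
      funext k l
      simp only [S2, L_succ]
      unfold L
      have : ∀ s, pie q s * Lam k (fun _ => pie q) (fun w => Lam l (fun _ => pie q)
          (fun v => Φ w (out s ++ v))) = Lam k (fun _ => pie q) (fun w => pie q s *
          Lam l (fun _ => pie q) (fun v => Φ w (out s ++ v))) := by
        intro s; rw [Lam_smul]
      simp only [this, Fintype.sum_option, Fintype.sum_bool, ← Lam_add]
    have e2 : ∀ s, Ex q (blocks n) (fun w => (1 - th q) *
        Ex q (blocks n) (fun v => Φ (out s ++ w) v) +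
        th q * ∑ s', pie q s' * Ex q (blocks n) (fun v => Φ (out s ++ w) (out s' ++ v))) =
        (1 - th q) * JJ (th q) n (fun k l => L q k (fun w => L q l
          (fun v => Φ (out s ++ w) v))) 0 0 +
        th q * JJ (th q) n (fun k l => L q k (fun w => L q l
          (fun v => Φ (out s ++ w) v))) 0 1 := by
      intro s
      rw [Ex_add, Ex_smul, Ex_smul, Ex_sum, ih (fun w v => Φ (out s ++ w) v)]
      congr 2
      simp only [Ex_smul]
      have e3 : ∀ s', Ex q (blocks n) (fun w => Ex q (blocks n)
          (fun v => Φ (out s ++ w) (out s' ++ v))) = JJ (th q) n (fun k l => L q k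
          (fun w => L q l (fun v => Φ (out s ++ w) (out s' ++ v)))) 0 0 :=
        fun s' => ih (fun w v => Φ (out s ++ w) (out s' ++ v))
      simp only [e3]
      rw [← JJ_sum, ← JJ_S2]
      congr 1
      funext k l
      simp only [S2, L_succ]
      unfold L
      have : ∀ s', pie q s' * Lam k (fun _ => pie q) (fun w => Lam l (fun _ => pie q)
          (fun v => Φ (out s ++ w) (out s' ++ v))) = Lam k (fun _ => pie q) (fun w => pie q s' *
          Lam l (fun _ => pie q) (fun v => Φ (out s ++ w) (out s' ++ v))) := by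
        intro s'; rw [Lam_smul]
      simp only [this, Fintype.sum_option, Fintype.sum_bool, ← Lam_add]
    rw [e1]
    simp only [e2]
    have e4 : ∀ j : ℕ, ∑ s, pie q s * JJ (th q) n (fun k l => L q k (fun w => L q l
          (fun v => Φ (out s ++ w) v))) 0 j =
        JJ (th q) n (fun k l => L q k (fun w => L q l (fun v => Φ w v))) 1 j := by
      intro j
      rw [← JJ_sum, ← JJ_S1]
      rfl
    simp only [mul_add, sum_add_distrib]
    have e5 : ∑ s, pie q s * ((1 - th q) * JJ (th q) n (fun k l => L q k (fun w => L q l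
          (fun v => Φ (out s ++ w) v))) 0 0) = (1 - th q) *
          JJ (th q) n (fun k l => L q k (fun w => L q l (fun v => Φ w v))) 1 0 := by
      rw [← e4, mul_sum]
      exact sum_congr rfl (fun s _ => by ring)
    have e6 : ∑ s, pie q s * (th q * JJ (th q) n (fun k l => L q k (fun w => L q l
          (fun v => Φ (out s ++ w) v))) 0 1) = th q *
          JJ (th q) n (fun k l => L q k (fun w => L q l (fun v => Φ w v))) 1 1 := by
      rw [← e4, mul_sum]
      exact sum_congr rfl (fun s _ => by ring)
    rw [e5, e6]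
    simp only [JJ]
    ring

end Vale.Agent.P321
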