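import Vale.Agent.Lib.P321.TwoPoint

/-!
Expectation functionals of traces of lists and the calculus of `Close`.
-/

namespace Vale.Agent.P321

open Finset

/-- Expectation of `φ` of the trace of a list. -/
noncomputable def Ex (q : ℝ) : List Bool → (List Bool → ℝ) → ℝ
  | [], φ => φ []
  | b :: x, φ => q * Ex q x φ + (1 - q) * Ex q x (fun w => φ (b :: w))

theorem Ex_append (q : ℝ) (x y : List Bool) (φ : List Bool → ℝ) :
    Ex q (x ++ y) φ = Ex q x (fun u => Ex q y (fun v => φ (u ++ v))) := by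
  induction x generalizing φ with
  | nil => simp [Ex]
  | cons b x ih =>
    simp only [List.cons_append, Ex]
    rw [ih, ih]

theorem Ex_add (q : ℝ) (x : List Bool) (φ ψ : List Bool → ℝ) :
    Ex q x (fun w => φ w + ψ w) = Ex q x φ + Ex q x ψ := by
  induction x generalizing φ ψ with
  | nil => simp [Ex]
  | cons b x ih => simp only [Ex]; rw [ih, ih]; ring

theorem Ex_smul (q : ℝ) (x : List Bool) (c : ℝ) (φ : List Bool → ℝ) :
    Ex q x (fun w => c * φ w) = c * Ex q x φ := by
  induction x generalizing φ with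
  | nil => simp [Ex]
  | cons b x ih => simp only [Ex]; rw [ih, ih]; ring

theorem Ex_sum (q : ℝ) (x : List Bool) {ι : Type} (s : Finset ι) (φ : ι → List Bool → ℝ) :
    Ex q x (fun w => ∑ i ∈ s, φ i w) = ∑ i ∈ s, Ex q x (φ i) := by
  classical
  induction s using Finset.induction_on with
  | empty =>
    simp only [sum_empty]
    have := Ex_smul q x 0 (fun _ => 0)
    simpa using this
  | insert a s ha ih =>
    simp only [sum_insert ha]
    rw [Ex_add, ih]

theorem trace_cons {n : ℕ} (x : Fin (n + 1) → Bool) (b : Bool) (K : Fin n → Bool) :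
    trace x (Fin.cons b K) =
      if b then x 0 :: trace (fun i => x i.succ) K else trace (fun i => x i.succ) K := by
  unfold trace
  rw [List.finRange_succ, List.filter_cons]
  have h : ((List.finRange n).map Fin.succ).filter
      (fun i => (Fin.cons b K : Fin (n + 1) → Bool) i) =
      ((List.finRange n).filter (fun i => K i)).map Fin.succ := by
    rw [List.filter_map]
    congr 1
  rw [h]
  cases b
  · simp [List.map_map]
  · simp [List.map_map]

theorem ExF_eq (q : ℝ) {n : ℕ} (x : Fin n → Bool) (φ : List Bool → ℝ) :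
    ExF q x φ = Ex q (List.ofFn x) φ := by
  induction n generalizing φ with
  | zero => simp [ExF, Ex, patternProb, trace]
  | succ n ih =>
    unfold ExF
    rw [sum_fin_succ, List.ofFn_succ]
    simp only [Ex]
    rw [← ih, ← ih]
    simp only [Fintype.sum_bool, trace_cons, ExF, mul_sum, patternProb, Fin.prod_univ_succ,
      Fin.cons_zero, Fin.cons_succ, if_true]
    rw [add_comm]
    congr 1
    · refine sum_congr rfl (fun K _ => ?_)
      simp; ring
    · refine sum_congr rfl (fun K _ => ?_)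
      ring

/-- A functional given by a finitely supported nonnegative measure. -/
def Rep (F : (List Bool → ℝ) → ℝ) : Prop :=
  ∃ (ι : Type) (_ : Fintype ι) (g : ι → List Bool) (μ : ι → ℝ),
    (∀ i, 0 ≤ μ i) ∧ (∀ φ, F φ = ∑ i, μ i * φ (g i))

theorem Rep.close {F : (List Bool → ℝ) → ℝ} (h : Rep F) : Close F F 0 := by
  obtain ⟨ι, hι, g, μ, h1, h2⟩ := h
  exact ⟨ι, hι, g, μ, μ, h1, h1, h2, h2, by simp⟩

theorem Rep_Ex {q : ℝ} (h0 : 0 ≤ q) (h1 : q ≤ 1) (x : List Bool) : Rep (Ex q x) := by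
  obtain ⟨n, f, rfl⟩ : ∃ (n : ℕ) (f : Fin n → Bool), x = List.ofFn f :=
    ⟨x.length, x.get, (List.ofFn_get x).symm⟩
  exact ⟨Fin n → Bool, inferInstance, trace f, patternProb q,
    fun K => patternProb_nonneg h0 h1 K, fun φ => by rw [← ExF_eq]; rfl⟩

theorem Close.mono {F G : (List Bool → ℝ) → ℝ} {h h' : ℝ} (hc : Close F G h) (hh : h ≤ h') :
    Close F G h' := by
  obtain ⟨ι, hι, g, μ, ν, h1, h2, h3, h4, h5⟩ := hc
  exact ⟨ι, hι, g, μ, ν, h1, h2, h3, h4, h5.trans hh⟩

theorem Close.congr {F G F' G' : (List Bool → ℝ) → ℝ} {h : ℝ} (hc : Close F G h)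
    (e1 : ∀ φ, F' φ = F φ) (e2 : ∀ φ, G' φ = G φ) : Close F' G' h := by
  have a1 : F' = F := funext e1
  have a2 : G' = G := funext e2
  rw [a1, a2]; exact hc

theorem Close.smul {F G : (List Bool → ℝ) → ℝ} {h : ℝ} (hc : Close F G h) {c : ℝ}
    (hc0 : 0 ≤ c) : Close (fun φ => c * F φ) (fun φ => c * G φ) (c * h) := by
  obtain ⟨ι, hι, g, μ, ν, h1, h2, h3, h4, h5⟩ := hc
  refine ⟨ι, hι, g, fun i => c * μ i, fun i => c * ν i, fun i => mul_nonneg hc0 (h1 i),
    fun i => mul_nonneg hc0 (h2 i), fun φ => ?_, fun φ => ?_, ?_⟩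
  · simp only [h3, mul_sum, mul_assoc]
  · simp only [h4, mul_sum, mul_assoc]
  · have : ∀ i, (√(c * μ i) - √(c * ν i)) ^ 2 = c * (√(μ i) - √(ν i)) ^ 2 := by
      intro i
      rw [Real.sqrt_mul hc0, Real.sqrt_mul hc0, ← mul_sub, mul_pow, Real.sq_sqrt hc0]
    simp only [this, ← mul_sum]
    rw [mul_div_assoc]
    exact mul_le_mul_of_nonneg_left h5 hc0

theorem Close.add {F G F' G' : (List Bool → ℝ) → ℝ} {h h' : ℝ} (hc : Close F G h)
    (hc' : Close F' G' h') :
    Close (fun φ => F φ + F' φ) (fun φ => G φ + G' φ) (h + h') := by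
  obtain ⟨ι, hι, g, μ, ν, h1, h2, h3, h4, h5⟩ := hc
  obtain ⟨κ, hκ, g', μ', ν', h1', h2', h3', h4', h5'⟩ := hc'
  refine ⟨ι ⊕ κ, inferInstance, Sum.elim g g', Sum.elim μ μ', Sum.elim ν ν', ?_, ?_,
    fun φ => ?_, fun φ => ?_, ?_⟩
  · rintro (i | i) <;> simp [h1, h1']
  · rintro (i | i) <;> simp [h2, h2']
  · simp [Fintype.sum_sum_type, h3, h3']
  · simp [Fintype.sum_sum_type, h4, h4']
  · simp only [Fintype.sum_sum_type, Sum.elim_inl, Sum.elim_inr]
    linarith

/-- Appending an independent piece on the right. -/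
theorem Close.append {F G : (List Bool → ℝ) → ℝ} {h : ℝ} (hc : Close F G h) {q : ℝ}
    (h0 : 0 ≤ q) (h1 : q ≤ 1) (z : List Bool) :
    Close (fun φ => F (fun w => Ex q z (fun v => φ (w ++ v))))
      (fun φ => G (fun w => Ex q z (fun v => φ (w ++ v)))) h := by
  obtain ⟨ι, hι, g, μ, ν, a1, a2, a3, a4, a5⟩ := hc
  obtain ⟨κ, hκ, g', σ, b1, b2⟩ := Rep_Ex h0 h1 z
  have sσ : ∑ k, σ k = 1 := by
    have h2 := b2 (fun _ => 1)
    simp only [mul_one] at h2
    rw [← h2]
    have : ∀ z : List Bool, Ex q z (fun _ => 1) = 1 := by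
      intro z
      induction z with
      | nil => rfl
      | cons b z ih => simp only [Ex, ih]; ring
    exact this z
  refine ⟨ι × κ, inferInstance, fun i => g i.1 ++ g' i.2, fun i => μ i.1 * σ i.2,
    fun i => ν i.1 * σ i.2, fun i => mul_nonneg (a1 _) (b1 _),
    fun i => mul_nonneg (a2 _) (b1 _), fun φ => ?_, fun φ => ?_, ?_⟩
  · show F (fun w => Ex q z fun v => φ (w ++ v)) = _
    rw [a3, Fintype.sum_prod_type]
    refine sum_congr rfl (fun i _ => ?_)
    rw [b2, mul_sum]
    refine sum_congr rfl (fun k _ => ?_)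
    ring
  · show G (fun w => Ex q z fun v => φ (w ++ v)) = _
    rw [a4, Fintype.sum_prod_type]
    refine sum_congr rfl (fun i _ => ?_)
    rw [b2, mul_sum]
    refine sum_congr rfl (fun k _ => ?_)
    ring
  · have : ∀ i : ι × κ, (√(μ i.1 * σ i.2) - √(ν i.1 * σ i.2)) ^ 2 =
        (√(μ i.1) - √(ν i.1)) ^ 2 * σ i.2 := by
      intro i
      rw [Real.sqrt_mul (a1 _), Real.sqrt_mul (a2 _), ← sub_mul, mul_pow, Real.sq_sqrt (b1 _)]
    simp only [this]
    rw [Fintype.sum_prod_type]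
    simp only [← mul_sum, sσ, mul_one]
    exact a5

end Vale.Agent.P321
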