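import Vale.Agent.Lib.P321.Binom

/-!
Mixtures: from one hidden place with a symmetric binomial law to the two strings.
-/

namespace Vale.Agent.P321

open Finset

theorem Lam_congr (l : ℕ) (ν ν' : ℕ → Option Bool → ℝ) (h : ∀ i < l, ν i = ν' i)
    (φ : List Bool → ℝ) : Lam l ν φ = Lam l ν' φ := by
  induction l generalizing ν ν' φ with
  | zero => rfl
  | succ l ih =>
    simp only [Lam]
    refine sum_congr rfl (fun s _ => ?_)
    rw [h 0 (by omega), ih (fun i => ν (i + 1)) (fun i => ν' (i + 1))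
      (fun i hi => h (i + 1) (by omega))]

theorem Lam_sum (l : ℕ) (ν : ℕ → Option Bool → ℝ) (φ : Option Bool → List Bool → ℝ)
    (c : Option Bool → ℝ) :
    Lam l ν (fun w => ∑ s, c s * φ s w) = ∑ s, c s * Lam l ν (φ s) := by
  simp only [Fintype.sum_option, Fintype.sum_bool, Lam_add, Lam_smul]

/-- Averaging over a symmetric binomial place. -/
noncomputable def Bb (A M : ℕ) (Φ : ℕ → ℕ → ℝ) : ℝ :=
  ∑ X ∈ range (M + 1), (M.choose X : ℝ) / 2 ^ M * Φ (A + X) (A + (M - X))

theorem Bb_diag (A M : ℕ) (Φ : ℕ → ℕ → ℝ) :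
    Bb A M (fun k l => Φ (k + 1) (l + 1)) = Bb (A + 1) M Φ := by
  unfold Bb
  refine sum_congr rfl (fun X _ => ?_)
  have h1 : A + X + 1 = A + 1 + X := by omega
  have h2 : A + (M - X) + 1 = A + 1 + (M - X) := by omega
  show (M.choose X : ℝ) / 2 ^ M * Φ (A + X + 1) (A + (M - X) + 1) = _
  rw [h1, h2]

theorem Bb_succ (A M : ℕ) (Φ : ℕ → ℕ → ℝ) :
    2 * Bb A (M + 1) Φ = Bb A M (fun k l => Φ (k + 1) l) + Bb A M (fun k l => Φ k (l + 1)) := by
  unfold Bb
  have e0 : ∑ X ∈ range (M + 1), (M.choose X : ℝ) / 2 ^ M * Φ (A + X) (A + (M - X) + 1) =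
      ∑ X ∈ range (M + 1), (M.choose (X + 1) : ℝ) / 2 ^ M * Φ (A + (X + 1)) (A + (M - X)) +
      Φ A (A + (M + 1)) / 2 ^ M := by
    have h1 : ∑ X ∈ range (M + 2), (M.choose X : ℝ) / 2 ^ M * Φ (A + X) (A + (M + 1 - X)) =
        ∑ X ∈ range (M + 1), (M.choose X : ℝ) / 2 ^ M * Φ (A + X) (A + (M - X) + 1) := by
      rw [sum_range_succ]
      simp only [Nat.choose_succ_self, Nat.cast_zero, zero_div, zero_mul, add_zero]
      refine sum_congr rfl (fun X hX => ?_)
      have : X ≤ M := by simpa [Nat.lt_succ_iff] using hX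
      congr 2; omega
    rw [← h1, sum_range_succ']
    congr 1
    · refine sum_congr rfl (fun X _ => ?_)
      congr 2; omega
    · simp; ring
  rw [e0, sum_range_succ', mul_add, mul_sum]
  have e1 : ∀ X ∈ range (M + 1), 2 * (((M + 1).choose (X + 1) : ℝ) / 2 ^ (M + 1) *
      Φ (A + (X + 1)) (A + (M + 1 - (X + 1)))) =
      (M.choose X : ℝ) / 2 ^ M * Φ (A + X + 1) (A + (M - X)) +
      (M.choose (X + 1) : ℝ) / 2 ^ M * Φ (A + (X + 1)) (A + (M - X)) := by
    intro X _
    rw [Nat.choose_succ_succ]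
    have : M + 1 - (X + 1) = M - X := by omega
    rw [this, ← add_assoc]
    push_cast
    field_simp
    ring
  rw [sum_congr rfl e1, sum_add_distrib]
  simp only [Nat.choose_zero_right, Nat.cast_one, add_zero, Nat.sub_zero]
  rw [add_assoc]
  congr 2
  field_simp
  ring

theorem Bb_lin (A M : ℕ) (a b c : ℝ) (Φ Φ' Φ'' : ℕ → ℕ → ℝ) :
    Bb A M (fun k l => a * Φ k l + b * Φ' k l + c * Φ'' k l) =
      a * Bb A M Φ + b * Bb A M Φ' + c * Bb A M Φ'' := by
  unfold Bb
  rw [mul_sum, mul_sum, mul_sum, ← sum_add_distrib, ← sum_add_distrib]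
  exact sum_congr rfl (fun X _ => by ring)

theorem Bb_add (A M : ℕ) (Φ Φ' : ℕ → ℕ → ℝ) :
    Bb A M (fun k l => Φ k l + Φ' k l) = Bb A M Φ + Bb A M Φ' := by
  unfold Bb
  rw [← sum_add_distrib]
  exact sum_congr rfl (fun X _ => by ring)

theorem Bb_JJ_succ (t : ℝ) (n A M : ℕ) (Φ : ℕ → ℕ → ℝ) :
    Bb A M (JJ t (n + 1) Φ) = (1 - t) ^ 2 * Bb A M (JJ t n Φ) +
      2 * t * (1 - t) * Bb A (M + 1) (JJ t n Φ) + t ^ 2 * Bb (A + 1) M (JJ t n Φ) := by
  have : JJ t (n + 1) Φ = fun k l => (1 - t) ^ 2 * JJ t n Φ k l +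
        t * (1 - t) * (JJ t n Φ (k + 1) l + JJ t n Φ k (l + 1)) +
        t ^ 2 * JJ t n Φ (k + 1) (l + 1) := rfl
  rw [this, Bb_lin, Bb_add, ← Bb_succ, ← Bb_diag]
  ring

/-- Averaging over a binomial number of coins. -/
noncomputable def HH (t : ℝ) : ℕ → (ℕ → ℝ) → ℕ → ℝ
  | 0, g => g
  | n + 1, g => fun M => ((1 - t) ^ 2 + t ^ 2) * HH t n g M + 2 * t * (1 - t) * HH t n g (M + 1)

theorem closeJ {t : ℝ} (ht0 : 0 ≤ t) (ht1 : t ≤ 1) (Ψ Ψ' : (List Bool → ℝ) → ℕ → ℕ → ℝ)
    (g : ℕ → ℝ) (h : ∀ A M, Close (fun φ => Bb A M (Ψ φ)) (fun φ => Bb A M (Ψ' φ)) (g M))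
    (n A M : ℕ) : Close (fun φ => Bb A M (JJ t n (Ψ φ))) (fun φ => Bb A M (JJ t n (Ψ' φ)))
      (HH t n g M) := by
  induction n generalizing A M with
  | zero => exact h A M
  | succ n ih =>
    simp only [Bb_JJ_succ]
    have h1 := ((ih A M).smul (c := (1 - t) ^ 2) (by positivity)).add
      ((ih A (M + 1)).smul (c := 2 * t * (1 - t)) (by
        have : 0 ≤ 1 - t := by linarith
        positivity))
    have h2 := h1.add ((ih (A + 1) M).smul (c := t ^ 2) (by positivity))
    refine h2.mono (le_of_eq ?_)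
    simp only [HH]; ring

/-- The functional with the marked letter right after the first group. -/
noncomputable def Px (q : ℝ) (φ : List Bool → ℝ) (k l : ℕ) : ℝ :=
  L q k (fun w => L q l (fun v => ∑ s, pie q s * φ (w ++ (true :: (out s ++ v)))))

/-- The functional with the marked letter one block later. -/
noncomputable def Py (q : ℝ) (φ : List Bool → ℝ) (k l : ℕ) : ℝ :=
  L q k (fun w => L q l (fun v => ∑ s, pie q s * φ (w ++ (out s ++ (true :: v)))))

theorem sum_de (f : Option Bool → ℝ) : ∑ s, de s * f s = f (some true) := by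
  simp [de, Fintype.sum_option, Fintype.sum_bool]

theorem Px_eq (q : ℝ) (φ : List Bool → ℝ) (k l : ℕ) :
    Px q φ k l = Lam (k + (l + 2)) (fun i => if i = k then de else pie q) φ := by
  rw [Lam_append]
  unfold Px L
  rw [Lam_congr k (fun i => if i = k then de else pie q) (fun _ => pie q)
    (fun i hi => by simp [Nat.ne_of_lt hi])]
  congr 1
  funext w
  simp only [Lam]
  rw [Lam_sum]
  simp only [Nat.zero_add, if_true, sum_de]
  refine sum_congr rfl (fun s _ => ?_)
  have h1 : ¬ (1 + k = k) := by omega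
  simp only [h1, if_false]
  congr 1
  rw [Lam_congr l (fun i => if i + 1 + 1 + k = k then de else pie q) (fun _ => pie q)
    (fun i hi => by
      have : ¬ (i + 1 + 1 + k = k) := by omega
      simp [this])]
  rfl

theorem Py_eq (q : ℝ) (φ : List Bool → ℝ) (k l : ℕ) :
    Py q φ k l = Lam (k + (l + 2)) (fun i => if i = k + 1 then de else pie q) φ := by
  rw [Lam_append]
  unfold Py L
  rw [Lam_congr k (fun i => if i = k + 1 then de else pie q) (fun _ => pie q)
    (fun i hi => by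
      have : ¬ (i = k + 1) := by omega
      simp [this])]
  congr 1
  funext w
  simp only [Lam]
  rw [Lam_sum]
  refine sum_congr rfl (fun s _ => ?_)
  have h1 : ¬ (0 + k = k + 1) := by omega
  have h2 : (0 + 1 + k = k + 1) := by omega
  simp only [h1, if_false, h2, if_true, sum_de]
  congr 1
  rw [Lam_congr l (fun i => if i + 1 + 1 + k = k + 1 then de else pie q) (fun _ => pie q)
    (fun i hi => by
      have : ¬ (i + 1 + 1 + k = k + 1) := by omega
      simp [this])]
  rfl

/-- value of `be` at a natural place, `0` outside. -/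
noncomputable def bo (q : ℝ) {l : ℕ} (u : Fin l → Option Bool) (j : ℕ) : ℝ :=
  if h : j < l then be q (u ⟨j, h⟩) else 0

theorem bo_coe (q : ℝ) {l : ℕ} (u : Fin l → Option Bool) (j : Fin l) :
    bo q u j = be q (u j) := by
  simp [bo]

theorem marked_prod {q : ℝ} (h0 : 0 < q) {l : ℕ} (u : Fin l → Option Bool) (j : ℕ) (hj : j < l) :
    ∏ i : Fin l, (if (i : ℕ) = j then de else pie q) (u i) = R q u * bo q u j := by
  unfold R bo
  rw [dif_pos hj]
  rw [← mul_prod_erase univ _ (mem_univ (⟨j, hj⟩ : Fin l)),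
    ← mul_prod_erase univ (fun i => pie q (u i)) (mem_univ (⟨j, hj⟩ : Fin l))]
  simp only [if_true]
  rw [← pie_be h0]
  have : ∏ x ∈ univ.erase (⟨j, hj⟩ : Fin l), (if (x : ℕ) = j then de else pie q) (u x) =
      ∏ x ∈ univ.erase (⟨j, hj⟩ : Fin l), pie q (u x) := by
    refine prod_congr rfl (fun x hx => ?_)
    have hne : (x : ℕ) ≠ j := fun h => (ne_of_mem_erase hx) (Fin.ext h)
    simp [hne]
  rw [this]; ring

theorem Bb_marked {q : ℝ} (h0 : 0 < q) (A M c : ℕ) (hc : c ≤ 1) (φ : List Bool → ℝ) :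
    Bb A M (fun k l => Lam (k + (l + 2)) (fun i => if i = k + c then de else pie q) φ) =
      ∑ u : Fin (2 * A + M + 2) → Option Bool,
        (R q u * ∑ j : Fin (2 * A + M + 2), bw M (A + c) j * be q (u j)) *
          φ ((List.ofFn u).flatMap out) := by
  unfold Bb
  have e1 : ∀ X ∈ range (M + 1), (M.choose X : ℝ) / 2 ^ M *
      Lam (A + X + (A + (M - X) + 2)) (fun i => if i = A + X + c then de else pie q) φ =
      ∑ u : Fin (2 * A + M + 2) → Option Bool, (M.choose X : ℝ) / 2 ^ M *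
        (R q u * bo q u (A + c + X)) * φ ((List.ofFn u).flatMap out) := by
    intro X hX
    have hX' : X ≤ M := by simpa [Nat.lt_succ_iff] using hX
    have hl : A + X + (A + (M - X) + 2) = 2 * A + M + 2 := by omega
    have hj : A + X + c = A + c + X := by omega
    rw [hl, hj, Lam_eq, mul_sum]
    refine sum_congr rfl (fun u _ => ?_)
    rw [marked_prod h0 u (A + c + X) (by omega)]
    ring
  rw [sum_congr rfl e1, sum_comm]
  refine sum_congr rfl (fun u _ => ?_)
  rw [← sum_mul]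
  congr 1
  have := sum_bw M (A + c) (2 * A + M + 2) (by omega) (fun j => bo q u j)
  simp only [bo_coe] at this
  rw [this, mul_sum]
  exact sum_congr rfl (fun X _ => by ring)

/-- The constant in the Hellinger bound. -/
noncomputable def Cq (q : ℝ) : ℝ := 1 / q + 3 * (8 * (1 + q) / q) ^ 3

theorem Cq_pos {q : ℝ} (h0 : 0 < q) : 0 < Cq q := by unfold Cq; positivity

noncomputable def gq (q : ℝ) (M : ℕ) : ℝ := Cq q / (√((M : ℝ) + 1)) ^ 3

theorem base_close {q : ℝ} (h0 : 0 < q) (h1 : q < 1) (A M : ℕ) :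
    Close (fun φ => Bb A M (Px q φ)) (fun φ => Bb A M (Py q φ)) (gq q M) := by
  refine ⟨Fin (2 * A + M + 2) → Option Bool, inferInstance,
    fun u => (List.ofFn u).flatMap out,
    fun u => R q u * ∑ j : Fin (2 * A + M + 2), bw M A j * be q (u j),
    fun u => R q u * ∑ j : Fin (2 * A + M + 2), bw M (A + 1) j * be q (u j), ?_, ?_, ?_, ?_, ?_⟩
  · intro u
    exact mul_nonneg (R_nonneg h0 h1 u)
      (sum_nonneg (fun j _ => mul_nonneg (bw_nonneg _ _ _) (be_nonneg h0 _)))
  · intro u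
    exact mul_nonneg (R_nonneg h0 h1 u)
      (sum_nonneg (fun j _ => mul_nonneg (bw_nonneg _ _ _) (be_nonneg h0 _)))
  · intro φ
    have := Bb_marked h0 A M 0 (by omega) φ
    simp only [add_zero] at this
    rw [← this]
    show Bb A M (Px q φ) = _
    congr 1
    funext k l
    exact Px_eq q φ k l
  · intro φ
    rw [← Bb_marked h0 A M 1 (by omega) φ]
    show Bb A M (Py q φ) = _
    congr 1
    funext k l
    exact Py_eq q φ k l
  · set r : ℝ := √(2 * (M : ℝ) + 1) with hr
    have hr0 : 0 < r := Real.sqrt_pos.mpr (by positivity)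
    set lam : ℝ := q * r / (4 * (1 + q)) with hlam
    have hl0 : 0 ≤ lam := by positivity
    have key := hellinger_core h0 h1 (l := 2 * A + M + 2) (fun j => bw M A j)
      (fun j => bw M (A + 1) j) (fun j => bw_nonneg _ _ _) (fun j => bw_nonneg _ _ _)
      (sum_bw_one M A _ (by omega)) (sum_bw_one M (A + 1) _ (by omega)) hl0
    have k1 := sum_bw_sub_sq M A (2 * A + M + 2) (by omega)
    have k2 := sum_bw_add_sq_le M A (2 * A + M + 2) (by omega)
    have k3 := cb_le M
    rw [k1] at key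
    have k4 : -lam + lam ^ 2 * ((1 + q) / q *
        ∑ j : Fin (2 * A + M + 2), (bw M A j + bw M (A + 1) j) ^ 2) / 2 ≤ -(lam / 2) := by
      have : (1 + q) / q * ∑ j : Fin (2 * A + M + 2), (bw M A j + bw M (A + 1) j) ^ 2 ≤
          (1 + q) / q * (4 * (1 / r)) := by
        refine mul_le_mul_of_nonneg_left ?_ (by positivity)
        refine le_trans k2 ?_
        exact mul_le_mul_of_nonneg_left k3 (by norm_num)
      have h3 : lam ^ 2 * ((1 + q) / q * (4 * (1 / r))) = lam := by
        rw [hlam]; field_simp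
      nlinarith [mul_le_mul_of_nonneg_left this (sq_nonneg lam)]
    have hl1 : 0 < lam / 2 := by positivity
    have k5 : Real.exp (-(lam / 2)) ≤ 6 * (8 * (1 + q) / q) ^ 3 / r ^ 3 := by
      have := Real.pow_div_factorial_le_exp (lam / 2) hl1.le 3
      rw [Real.exp_neg, inv_le_comm₀ (Real.exp_pos _) (by positivity)]
      refine le_trans (le_of_eq ?_) this
      rw [hlam]
      simp only [Nat.factorial]
      push_cast
      field_simp
      ring
    have hM0 : (0 : ℝ) < (M : ℝ) + 1 := by positivity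
    set s : ℝ := √((M : ℝ) + 1) with hs
    have hs0 : 0 < s := Real.sqrt_pos.mpr hM0
    have hs2 : s ^ 2 = (M : ℝ) + 1 := Real.sq_sqrt hM0.le
    have hsr : s ≤ r := Real.sqrt_le_sqrt (by
      have : (0 : ℝ) ≤ M := Nat.cast_nonneg M
      linarith)
    have k6 : 6 * (8 * (1 + q) / q) ^ 3 / r ^ 3 ≤ 6 * (8 * (1 + q) / q) ^ 3 / s ^ 3 := by
      apply div_le_div_of_nonneg_left (by positivity) (by positivity)
      exact pow_le_pow_left₀ hs0.le hsr 3
    have k7 : 1 / q * (2 * ((2 * M).choose M : ℝ) / 4 ^ M / (M + 1)) ≤ 2 / q / s ^ 3 := by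
      have : 1 / q * (2 * ((2 * M).choose M : ℝ) / 4 ^ M / (M + 1)) =
          2 / q * (((2 * M).choose M : ℝ) / 4 ^ M) / s ^ 2 := by
        rw [hs2]; field_simp
      rw [this]
      have h5 : ((2 * M).choose M : ℝ) / 4 ^ M ≤ 1 / s := by
        refine le_trans k3 ?_
        exact one_div_le_one_div_of_le hs0 hsr
      have h6 : 2 / q * (((2 * M).choose M : ℝ) / 4 ^ M) / s ^ 2 ≤ 2 / q * (1 / s) / s ^ 2 := by
        gcongr
      refine le_trans h6 (le_of_eq ?_)
      field_simp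
    have k8 := Real.exp_le_exp.mpr k4
    show (∑ u : Fin (2 * A + M + 2) → Option Bool, _) / 2 ≤ Cq q / s ^ 3
    have k9 : Cq q / s ^ 3 = (2 / q / s ^ 3 + 6 * (8 * (1 + q) / q) ^ 3 / s ^ 3) / 2 := by
      unfold Cq; field_simp; ring
    rw [k9]
    apply div_le_div_of_nonneg_right _ (by norm_num)
    linarith

end Vale.Agent.P321
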