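import Vale.Agent.Lib.P321.Defs

/-!
The two-point method: if the trace laws of two strings are close in Hellinger distance then
many traces are needed.
-/

namespace Vale.Agent.P321

open Finset

theorem sum_fin_succ {ι : Type} [Fintype ι] (m : ℕ) (G : (Fin (m + 1) → ι) → ℝ) :
    ∑ i : Fin (m + 1) → ι, G i = ∑ a : ι, ∑ i : Fin m → ι, G (Fin.cons a i) := by
  rw [← Equiv.sum_comp (Fin.consEquiv (fun _ : Fin (m + 1) => ι)), Fintype.sum_prod_type]
  rfl

theorem multi_sum {ι κ α : Type} [Fintype ι] [Fintype κ] (μ : ι → ℝ) (f : ι → α)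
    (ν : κ → ℝ) (g : κ → α)
    (h : ∀ φ : α → ℝ, ∑ i, μ i * φ (f i) = ∑ k, ν k * φ (g k)) (m : ℕ) :
    ∀ F : (Fin m → α) → ℝ,
    ∑ i : Fin m → ι, (∏ j, μ (i j)) * F (fun j => f (i j)) =
      ∑ k : Fin m → κ, (∏ j, ν (k j)) * F (fun j => g (k j)) := by
  induction m with
  | zero =>
    intro F
    have e1 : ∀ i : Fin 0 → ι, F (fun j => f (i j)) = F (fun j => Fin.elim0 j) := by
      intro i; congr 1; funext j; exact Fin.elim0 j
    have e2 : ∀ i : Fin 0 → κ, F (fun j => g (i j)) = F (fun j => Fin.elim0 j) := by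
      intro i; congr 1; funext j; exact Fin.elim0 j
    simp [e1, e2]
  | succ m ih =>
    intro F
    rw [sum_fin_succ, sum_fin_succ]
    have key1 : ∀ a : ι, ∑ i : Fin m → ι, (∏ j, μ ((Fin.cons a i : Fin (m + 1) → ι) j)) *
        F (fun j => f ((Fin.cons a i : Fin (m + 1) → ι) j)) =
        μ a * ∑ i : Fin m → ι, (∏ j, μ (i j)) *
          (fun t : Fin m → α => F (Fin.cons (f a) t)) (fun j => f (i j)) := by
      intro a
      rw [mul_sum]
      refine sum_congr rfl (fun i _ => ?_)
      rw [Fin.prod_univ_succ]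
      simp only [Fin.cons_zero, Fin.cons_succ]
      rw [mul_assoc]
      congr 3
      funext j
      refine Fin.cases ?_ (fun j => ?_) j <;> simp
    have key2 : ∀ a : κ, ∑ i : Fin m → κ, (∏ j, ν ((Fin.cons a i : Fin (m + 1) → κ) j)) *
        F (fun j => g ((Fin.cons a i : Fin (m + 1) → κ) j)) =
        ν a * ∑ i : Fin m → κ, (∏ j, ν (i j)) *
          (fun t : Fin m → α => F (Fin.cons (g a) t)) (fun j => g (i j)) := by
      intro a
      rw [mul_sum]
      refine sum_congr rfl (fun i _ => ?_)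
      rw [Fin.prod_univ_succ]
      simp only [Fin.cons_zero, Fin.cons_succ]
      rw [mul_assoc]
      congr 3
      funext j
      refine Fin.cases ?_ (fun j => ?_) j <;> simp
    simp only [key1, key2]
    have := h (fun a => ∑ k : Fin m → κ, (∏ j, ν (k j)) *
          (fun t : Fin m → α => F (Fin.cons a t)) (fun j => g (k j)))
    rw [← this]
    refine sum_congr rfl (fun a _ => ?_)
    rw [ih (fun t : Fin m → α => F (Fin.cons (f a) t))]

/-- Total variation is controlled by the Hellinger affinity, in the form used for testing. -/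
theorem test_le {I : Type} [Fintype I] (P Q : I → ℝ) (hP : ∀ i, 0 ≤ P i) (hQ : ∀ i, 0 ≤ Q i)
    (sP : ∑ i, P i = 1) (sQ : ∑ i, Q i = 1) (e f : I → ℝ) (he : ∀ i, 0 ≤ e i)
    (hf : ∀ i, 0 ≤ f i) (hef : ∀ i, e i + f i ≤ 1) :
    (∑ i, P i * e i + ∑ i, Q i * f i - 1) ^ 2 ≤ 1 - (∑ i, √(P i) * √(Q i)) ^ 2 ∨
      ∑ i, P i * e i + ∑ i, Q i * f i ≤ 1 := by
  by_cases h1 : ∑ i, P i * e i + ∑ i, Q i * f i ≤ 1
  · right; exact h1
  left
  rw [not_le] at h1
  have hstep : ∑ i, P i * e i + ∑ i, Q i * f i - 1 ≤ (∑ i, |P i - Q i|) / 2 := by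
    have : ∑ i, P i * e i + ∑ i, Q i * f i ≤ ∑ i, ((P i + Q i) / 2 + |P i - Q i| / 2) := by
      rw [← sum_add_distrib]
      refine sum_le_sum (fun i _ => ?_)
      have hm : max (P i) (Q i) = (P i + Q i) / 2 + |P i - Q i| / 2 := by
        rcases le_total (P i) (Q i) with hh | hh
        · rw [max_eq_right hh, abs_of_nonpos (by linarith)]; ring
        · rw [max_eq_left hh, abs_of_nonneg (by linarith)]; ring
      rw [← hm]
      have a1 := le_max_left (P i) (Q i)
      have a2 := le_max_right (P i) (Q i)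
      have a3 : 0 ≤ max (P i) (Q i) := le_trans (hP i) a1
      nlinarith [he i, hf i, hef i]
    rw [sum_add_distrib, ← sum_div, ← sum_div, sum_add_distrib, sP, sQ] at this
    linarith
  have hCS : (∑ i, |P i - Q i|) ^ 2 ≤ (∑ i, (√(P i) - √(Q i)) ^ 2) * ∑ i, (√(P i) + √(Q i)) ^ 2 := by
    have := Finset.sum_mul_sq_le_sq_mul_sq univ (fun i => |√(P i) - √(Q i)|)
      (fun i => (√(P i) + √(Q i)))
    simp only [sq_abs] at this
    refine le_trans (le_of_eq ?_) this
    congr 1
    refine sum_congr rfl (fun i _ => ?_)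
    have h0 : 0 ≤ √(P i) + √(Q i) := by positivity
    have h2 := Real.sq_sqrt (hP i)
    have h3 := Real.sq_sqrt (hQ i)
    have h4 : P i - Q i = (√(P i) - √(Q i)) * (√(P i) + √(Q i)) := by nlinarith
    rw [h4, abs_mul, abs_of_nonneg h0]
  have e1 : ∑ i, (√(P i) - √(Q i)) ^ 2 = 2 - 2 * ∑ i, √(P i) * √(Q i) := by
    have : ∀ i, (√(P i) - √(Q i)) ^ 2 = P i + Q i - 2 * (√(P i) * √(Q i)) := by
      intro i
      have h2 := Real.sq_sqrt (hP i)
      have h3 := Real.sq_sqrt (hQ i)
      nlinarith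
    simp only [this]
    rw [sum_sub_distrib, sum_add_distrib, sP, sQ, ← mul_sum]; ring
  have e2 : ∑ i, (√(P i) + √(Q i)) ^ 2 = 2 + 2 * ∑ i, √(P i) * √(Q i) := by
    have : ∀ i, (√(P i) + √(Q i)) ^ 2 = P i + Q i + 2 * (√(P i) * √(Q i)) := by
      intro i
      have h2 := Real.sq_sqrt (hP i)
      have h3 := Real.sq_sqrt (hQ i)
      nlinarith
    simp only [this]
    rw [sum_add_distrib, sum_add_distrib, sP, sQ, ← mul_sum]; ring
  rw [e1, e2] at hCS
  have h4 : 0 ≤ ∑ i, P i * e i + ∑ i, Q i * f i - 1 := by linarith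
  nlinarith

/-- `Close F G h`: the functionals `F`, `G` (expectations of finitely supported measures)
have a common refinement in which the squared Hellinger distance is at most `h`. -/
def Close (F G : (List Bool → ℝ) → ℝ) (h : ℝ) : Prop :=
  ∃ (ι : Type) (_ : Fintype ι) (g : ι → List Bool) (μ ν : ι → ℝ),
    (∀ i, 0 ≤ μ i) ∧ (∀ i, 0 ≤ ν i) ∧ (∀ φ, F φ = ∑ i, μ i * φ (g i)) ∧
    (∀ φ, G φ = ∑ i, ν i * φ (g i)) ∧ (∑ i, (√(μ i) - √(ν i)) ^ 2) / 2 ≤ h

/-- Expectation of a function of the trace. -/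
noncomputable def ExF (q : ℝ) {n : ℕ} (x : Fin n → Bool) (φ : List Bool → ℝ) : ℝ :=
  ∑ K : Fin n → Bool, patternProb q K * φ (trace x K)

theorem sum_patternProb (q : ℝ) (n : ℕ) : ∑ K : Fin n → Bool, patternProb q K = 1 := by
  unfold patternProb
  have := Finset.prod_univ_sum (fun _ : Fin n => (univ : Finset Bool))
    (fun _ b => if b then 1 - q else q)
  simp only [Fintype.piFinset_univ] at this
  rw [← this]
  simp

theorem patternProb_nonneg {q : ℝ} (h0 : 0 ≤ q) (h1 : q ≤ 1) {n : ℕ} (K : Fin n → Bool) :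
    0 ≤ patternProb q K := by
  unfold patternProb
  refine prod_nonneg (fun i _ => ?_)
  split <;> linarith

theorem two_point {q : ℝ} {n m : ℕ} (x y : Fin n → Bool)
    (hxy : x ≠ y) {h : ℝ} (hc : Close (ExF q x) (ExF q y) h)
    (hr : Reconstructs q n m) : 1 / 18 ≤ m * h := by
  obtain ⟨est, hest, hs⟩ := hr
  obtain ⟨ι, _, g, μ, ν, hμ, hν, hF, hG, hh⟩ := hc
  have sμ : ∑ i, μ i = 1 := by
    have := hF (fun _ => 1)
    simp only [ExF, mul_one] at this
    rw [sum_patternProb] at this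
    exact this.symm
  have sν : ∑ i, ν i = 1 := by
    have := hG (fun _ => 1)
    simp only [ExF, mul_one] at this
    rw [sum_patternProb] at this
    exact this.symm
  have hx := hs x
  have hy := hs y
  unfold successProb at hx hy
  rw [multi_sum (patternProb q) (trace x) μ g (fun φ => by rw [← hF]; rfl) m
    (fun t => est t x)] at hx
  rw [multi_sum (patternProb q) (trace y) ν g (fun φ => by rw [← hG]; rfl) m
    (fun t => est t y)] at hy
  have key := test_le (fun i : Fin m → ι => ∏ j, μ (i j)) (fun i : Fin m → ι => ∏ j, ν (i j))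
    (fun i => prod_nonneg (fun j _ => hμ _)) (fun i => prod_nonneg (fun j _ => hν _))
    (by
      have := Finset.prod_univ_sum (fun _ : Fin m => (univ : Finset ι)) (fun _ b => μ b)
      simp only [Fintype.piFinset_univ] at this
      rw [← this, sμ]; simp)
    (by
      have := Finset.prod_univ_sum (fun _ : Fin m => (univ : Finset ι)) (fun _ b => ν b)
      simp only [Fintype.piFinset_univ] at this
      rw [← this, sν]; simp)
    (fun i => est (fun j => g (i j)) x) (fun i => est (fun j => g (i j)) y)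
    (fun i => (hest _).1 _) (fun i => (hest _).1 _)
    (fun i => by
      have h2 := (hest (fun j => g (i j))).2
      rw [← h2]
      have : est (fun j => g (i j)) x + est (fun j => g (i j)) y =
          ∑ z ∈ {x, y}, est (fun j => g (i j)) z := by
        rw [sum_pair hxy]
      rw [this]
      exact sum_le_sum_of_subset_of_nonneg (subset_univ _) (fun z _ _ => (hest _).1 _))
  have hρ : ∑ i : Fin m → ι, √(∏ j, μ (i j)) * √(∏ j, ν (i j)) = (∑ i, √(μ i) * √(ν i)) ^ m := by
    have := Finset.prod_univ_sum (fun _ : Fin m => (univ : Finset ι))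
      (fun _ b => √(μ b) * √(ν b))
    simp only [Fintype.piFinset_univ, prod_const, card_univ, Fintype.card_fin] at this
    rw [this]
    refine sum_congr rfl (fun i _ => ?_)
    rw [Real.sqrt_prod _ (fun j _ => hμ _), Real.sqrt_prod _ (fun j _ => hν _),
      ← prod_mul_distrib]
  rw [hρ] at key
  have hd : ∑ i, √(μ i) * √(ν i) = 1 - (∑ i, (√(μ i) - √(ν i)) ^ 2) / 2 := by
    have : ∀ i, (√(μ i) - √(ν i)) ^ 2 = μ i + ν i - 2 * (√(μ i) * √(ν i)) := by
      intro i
      have h2 := Real.sq_sqrt (hμ i)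
      have h3 := Real.sq_sqrt (hν i)
      nlinarith
    simp only [this]
    rw [sum_sub_distrib, sum_add_distrib, sμ, sν, ← mul_sum]; ring
  set ρ := ∑ i, √(μ i) * √(ν i) with hρdef
  have hρ0 : 0 ≤ ρ := sum_nonneg (fun i _ => by positivity)
  have hρh : 1 - h ≤ ρ := by rw [hd]; linarith
  rcases key with key | key
  · have h3 : (1 / 3 : ℝ) ^ 2 ≤ 1 - (ρ ^ m) ^ 2 := by
      refine le_trans ?_ key
      have : (1 / 3 : ℝ) ≤ ∑ i : Fin m → ι, (∏ j, μ (i j)) * est (fun j => g (i j)) x +
        ∑ i : Fin m → ι, (∏ j, ν (i j)) * est (fun j => g (i j)) y - 1 := by linarith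
      exact pow_le_pow_left₀ (by norm_num) this 2
    have h4 : (ρ ^ m) ^ 2 ≥ 1 - 2 * m * h := by
      rw [← pow_mul]
      have hρ1 : ρ ≤ 1 := by
        rw [hd]
        have : 0 ≤ (∑ i, (√(μ i) - √(ν i)) ^ 2) / 2 := by positivity
        linarith
      have hb := one_add_mul_le_pow (a := ρ - 1) (by linarith) (m * 2)
      have : (1 + (ρ - 1)) = ρ := by ring
      rw [this] at hb
      push_cast at hb
      have hm0 : (0 : ℝ) ≤ m := Nat.cast_nonneg m
      nlinarith
    nlinarith
  · exfalso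
    linarith

end Vale.Agent.P321
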